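import Vale.Agent.P253.Bdl.B2

/-!
P253: one-parameter groups of holomorphic maps (no metric): generator in charts.
Adapted from `Bdl/B2.lean` (the isometry property is not used there).
-/

open scoped Manifold ContDiff Topology
open Set Metric Complex Filter IsManifold Vale.Agent.P253.Mfd

set_option maxSynthPendingDepth 3
set_option linter.unusedSectionVars false

noncomputable section

namespace Vale.Agent.P253.R2.H156

variable (E : Type*) [NormedAddCommGroup E] [NormedSpace ℂ E] in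
/-- `ρ` is a smooth one-parameter group of holomorphic maps of the complex manifold `M`. -/
structure IsHolFlow {M : Type*} [TopologicalSpace M] [ChartedSpace E M] (ρ : ℝ → M → M) :
    Prop where
  zero : ∀ x, ρ 0 x = x
  add : ∀ s t x, ρ (s + t) x = ρ s (ρ t x)
  smooth : ContMDiff (𝓘(ℝ, ℝ).prod 𝓘(ℝ, E)) 𝓘(ℝ, E) ∞ (fun q : ℝ × M => ρ q.1 q.2)
  holo : ∀ t, MDifferentiable 𝓘(ℂ, E) 𝓘(ℂ, E) (ρ t)

variable {E : Type*} [NormedAddCommGroup E] [NormedSpace ℂ E] [FiniteDimensional ℂ E]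
  {M : Type*} [MetricSpace M] [ChartedSpace E M]
  [IsManifold 𝓘(ℂ, E) 1 M] [IsManifold 𝓘(ℝ, E) ∞ M]
  {ρ : ℝ → M → M} {e e' : OpenPartialHomeomorph M E}

theorem isOpen_HΩ (hρ : IsHolFlow E ρ) : IsOpen (HΩ ρ e e') := by
  have hc : ContinuousOn (fun q : ℝ × E => ρ q.1 (e.symm q.2)) {q | q.2 ∈ e.target} := by
    have h1 : ContinuousOn (fun q : ℝ × E => (q.1, e.symm q.2)) {q | q.2 ∈ e.target} :=
      continuousOn_fst.prodMk (e.continuousOn_symm.comp continuousOn_snd (fun q hq => hq))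
    exact hρ.smooth.continuous.comp_continuousOn h1
  have ho : IsOpen {q : ℝ × E | q.2 ∈ e.target} := e.open_target.preimage continuous_snd
  exact hc.isOpen_inter_preimage ho e'.open_source

theorem contDiffOn_HF (hρ : IsHolFlow E ρ) (he : e ∈ maximalAtlas 𝓘(ℂ, E) 1 M)
    (he' : e' ∈ maximalAtlas 𝓘(ℂ, E) 1 M) : ContDiffOn ℝ ∞ (HF ρ e e') (HΩ ρ e e') := by
  have her := mem_maximalAtlas_real he
  have her' := mem_maximalAtlas_real he'
  have h1 : ContMDiffOn (𝓘(ℝ, ℝ).prod 𝓘(ℝ, E)) (𝓘(ℝ, ℝ).prod 𝓘(ℝ, E)) ∞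
      (fun q : ℝ × E => (q.1, e.symm q.2)) (HΩ ρ e e') := by
    refine ContMDiffOn.prodMk contMDiffOn_fst ?_
    exact (contMDiffOn_symm_of_mem_maximalAtlas her).comp contMDiffOn_snd (fun q hq => hq.1)
  have h2 := hρ.smooth.comp_contMDiffOn h1
  have h3 := (contMDiffOn_of_mem_maximalAtlas her').comp h2 (fun q hq => hq.2)
  have h4 : ContMDiffOn 𝓘(ℝ, ℝ × E) 𝓘(ℝ, E) ∞ (HF ρ e e') (HΩ ρ e e') := by
    rw [← modelWithCornersSelf_prod, chartedSpaceSelf_prod] at h3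
    exact h3
  exact contMDiffOn_iff_contDiffOn.1 h4

theorem HΩ_slice_holo (hρ : IsHolFlow E ρ) (he : e ∈ maximalAtlas 𝓘(ℂ, E) 1 M)
    (he' : e' ∈ maximalAtlas 𝓘(ℂ, E) 1 M) {t : ℝ} {z : E} (hz : (t, z) ∈ HΩ ρ e e') :
    DifferentiableAt ℂ (fun w => HF ρ e e' (t, w)) z := by
  have h1 : MDifferentiableAt 𝓘(ℂ, E) 𝓘(ℂ, E) e.symm z :=
    ((contMDiffOn_symm_of_mem_maximalAtlas he).contMDiffAt
      (e.open_target.mem_nhds hz.1)).mdifferentiableAt (by simp)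
  have h2 : MDifferentiableAt 𝓘(ℂ, E) 𝓘(ℂ, E) (ρ t) (e.symm z) := hρ.holo t _
  have h3 : MDifferentiableAt 𝓘(ℂ, E) 𝓘(ℂ, E) e' (ρ t (e.symm z)) :=
    ((contMDiffOn_of_mem_maximalAtlas he').contMDiffAt
      (e'.open_source.mem_nhds hz.2)).mdifferentiableAt (by simp)
  have h4 := h3.comp z (h2.comp z h1)
  exact h4.differentiableAt

theorem mem_HΩ_zero (hρ : IsHolFlow E ρ) {z : E} (hz : z ∈ e.target) :
    (0, z) ∈ HΩ ρ e e := by
  refine ⟨hz, ?_⟩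
  simp only [hρ.zero]
  exact e.map_target hz

theorem differentiableAt_HF (hρ : IsHolFlow E ρ)
    (he : e ∈ maximalAtlas 𝓘(ℂ, E) 1 M) (he' : e' ∈ maximalAtlas 𝓘(ℂ, E) 1 M) {q : ℝ × E}
    (hq : q ∈ HΩ ρ e e') : DifferentiableAt ℝ (HF ρ e e') q :=
  ((contDiffOn_HF hρ he he').contDiffAt ((isOpen_HΩ hρ).mem_nhds hq)).differentiableAt (by simp)

theorem contDiffOn_fderiv_HF (hρ : IsHolFlow E ρ)
    (he : e ∈ maximalAtlas 𝓘(ℂ, E) 1 M) (he' : e' ∈ maximalAtlas 𝓘(ℂ, E) 1 M) :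
    ContDiffOn ℝ ∞ (fderiv ℝ (HF ρ e e')) (HΩ ρ e e') :=
  (contDiffOn_HF hρ he he').fderiv_of_isOpen (isOpen_HΩ hρ) (by simp)

theorem hasDerivAt_HF_left (hρ : IsHolFlow E ρ)
    (he : e ∈ maximalAtlas 𝓘(ℂ, E) 1 M) (he' : e' ∈ maximalAtlas 𝓘(ℂ, E) 1 M) {t : ℝ} {z : E}
    (hq : (t, z) ∈ HΩ ρ e e') :
    HasDerivAt (fun s => HF ρ e e' (s, z)) (fderiv ℝ (HF ρ e e') (t, z) (1, 0)) t := by
  have h1 := (differentiableAt_HF hρ he he' hq).hasFDerivAt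
  have h2 : HasDerivAt (fun s : ℝ => (s, z)) (1, 0) t :=
    (hasDerivAt_id t).prodMk (hasDerivAt_const t z)
  exact h1.comp_hasDerivAt t h2

theorem hasFDerivAt_HF_right (hρ : IsHolFlow E ρ)
    (he : e ∈ maximalAtlas 𝓘(ℂ, E) 1 M) (he' : e' ∈ maximalAtlas 𝓘(ℂ, E) 1 M) {t : ℝ} {z : E}
    (hq : (t, z) ∈ HΩ ρ e e') :
    HasFDerivAt (fun w => HF ρ e e' (t, w))
      ((fderiv ℝ (HF ρ e e') (t, z)).comp (ContinuousLinearMap.inr ℝ ℝ E)) z := by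
  have h1 := (differentiableAt_HF hρ he he' hq).hasFDerivAt
  have h2 : HasFDerivAt (fun w : E => (t, w)) (ContinuousLinearMap.inr ℝ ℝ E) z :=
    hasFDerivAt_prodMk_right t z
  exact h1.comp z h2

theorem xF_eq (hρ : IsHolFlow E ρ) (he : e ∈ maximalAtlas 𝓘(ℂ, E) 1 M) {z : E}
    (hz : z ∈ e.target) : xF ρ e z = fderiv ℝ (HF ρ e e) (0, z) (1, 0) :=
  (hasDerivAt_HF_left hρ he he (mem_HΩ_zero hρ hz)).deriv

theorem contDiffOn_xF (hρ : IsHolFlow E ρ) (he : e ∈ maximalAtlas 𝓘(ℂ, E) 1 M) :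
    ContDiffOn ℝ ∞ (xF ρ e) e.target := by
  have h1 : ContDiffOn ℝ ∞ (fun z : E => fderiv ℝ (HF ρ e e) (0, z) (1, 0)) e.target := by
    have h2 : ContDiffOn ℝ ∞ (fun z : E => fderiv ℝ (HF ρ e e) (0, z)) e.target :=
      (contDiffOn_fderiv_HF hρ he he).comp (contDiff_prodMk_right 0).contDiffOn
        (fun z hz => mem_HΩ_zero hρ hz)
    exact h2.clm_apply contDiffOn_const
  exact h1.congr (fun z hz => xF_eq hρ he hz)

/-- derivative of the generator -/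
theorem fderiv_xF (hρ : IsHolFlow E ρ) (he : e ∈ maximalAtlas 𝓘(ℂ, E) 1 M) {z : E}
    (hz : z ∈ e.target) (v : E) :
    fderiv ℝ (xF ρ e) z v = fderiv ℝ (fderiv ℝ (HF ρ e e)) (0, z) (1, 0) (0, v) := by
  have hq := mem_HΩ_zero hρ hz
  have hd : HasFDerivAt (fderiv ℝ (HF ρ e e)) (fderiv ℝ (fderiv ℝ (HF ρ e e)) (0, z)) (0, z) :=
    (((contDiffOn_fderiv_HF hρ he he).contDiffAt
      ((isOpen_HΩ hρ).mem_nhds hq)).differentiableAt (by simp)).hasFDerivAt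
  have h1 : HasFDerivAt (fun w : E => fderiv ℝ (HF ρ e e) (0, w))
      ((fderiv ℝ (fderiv ℝ (HF ρ e e)) (0, z)).comp (ContinuousLinearMap.inr ℝ ℝ E)) z :=
    hd.comp z (hasFDerivAt_prodMk_right (0:ℝ) z)
  have h2 := h1.clm_apply (hasFDerivAt_const ((1, 0) : ℝ × E) z)
  have h3 : (xF ρ e) =ᶠ[𝓝 z] fun w => fderiv ℝ (HF ρ e e) (0, w) (1, 0) := by
    filter_upwards [e.open_target.mem_nhds hz] with w hw using xF_eq hρ he hw
  have h4 := (h2.congr_of_eventuallyEq h3).fderiv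
  rw [h4]
  have hs : IsSymmSndFDerivAt ℝ (HF ρ e e) (0, z) :=
    ((contDiffOn_HF hρ he he).contDiffAt ((isOpen_HΩ hρ).mem_nhds hq)).isSymmSndFDerivAt
      (by simpa using! (WithTop.coe_le_coe.2 le_top : ((2 : ℕ∞) : WithTop ℕ∞) ≤ ((⊤ : ℕ∞) : WithTop ℕ∞)))
  rw [hs.eq (1, 0) (0, v)]
  simp

/-- the derivative in the space direction along the time direction -/
theorem hasDerivAt_fderiv_HF (hρ : IsHolFlow E ρ)
    (he : e ∈ maximalAtlas 𝓘(ℂ, E) 1 M) {z : E} (hz : z ∈ e.target) (v : E) :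
    HasDerivAt (fun t : ℝ => fderiv ℝ (HF ρ e e) (t, z) (0, v)) (fderiv ℝ (xF ρ e) z v) 0 := by
  have hq := mem_HΩ_zero hρ hz
  have hd : HasFDerivAt (fderiv ℝ (HF ρ e e)) (fderiv ℝ (fderiv ℝ (HF ρ e e)) (0, z)) (0, z) :=
    (((contDiffOn_fderiv_HF hρ he he).contDiffAt
      ((isOpen_HΩ hρ).mem_nhds hq)).differentiableAt (by simp)).hasFDerivAt
  have h2 : HasDerivAt (fun s : ℝ => (s, z)) (1, 0) 0 :=
    (hasDerivAt_id (0:ℝ)).prodMk (hasDerivAt_const 0 z)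
  have h3 : HasDerivAt (fun t : ℝ => fderiv ℝ (HF ρ e e) (t, z))
      (fderiv ℝ (fderiv ℝ (HF ρ e e)) (0, z) (1, 0)) 0 := hd.comp_hasDerivAt (0:ℝ) h2
  have h4 := h3.clm_apply (hasDerivAt_const (0:ℝ) ((0, v) : ℝ × E))
  rw [fderiv_xF hρ he hz]
  simpa using h4

theorem fderiv_HF_I (hρ : IsHolFlow E ρ)
    (he : e ∈ maximalAtlas 𝓘(ℂ, E) 1 M) (he' : e' ∈ maximalAtlas 𝓘(ℂ, E) 1 M) {t : ℝ} {z : E}
    (hq : (t, z) ∈ HΩ ρ e e') (v : E) :
    fderiv ℝ (HF ρ e e') (t, z) (0, I • v) = I • fderiv ℝ (HF ρ e e') (t, z) (0, v) := by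
  have h1 := (HΩ_slice_holo hρ he he' hq).hasFDerivAt.restrictScalars ℝ
  have h2 := (hasFDerivAt_HF_right hρ he he' hq).unique h1
  have h3 : ∀ w : E, fderiv ℝ (HF ρ e e') (t, z) (0, w) =
      fderiv ℂ (fun w => HF ρ e e' (t, w)) z w := fun w => congrArg (fun T : E →L[ℝ] E => T w) h2
  rw [h3, h3, map_smul]

theorem differentiableOn_xF (hρ : IsHolFlow E ρ)
    (he : e ∈ maximalAtlas 𝓘(ℂ, E) 1 M) : DifferentiableOn ℂ (xF ρ e) e.target := by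
  intro z hz
  apply DifferentiableAt.differentiableWithinAt
  apply differentiableAt_complex_of_real
  · exact ((contDiffOn_xF hρ he).contDiffAt (e.open_target.mem_nhds hz)).differentiableAt (by simp)
  · intro v
    have h1 := hasDerivAt_fderiv_HF hρ he hz (I • v)
    have h2 := (hasDerivAt_fderiv_HF hρ he hz v).const_smul I
    refine h1.unique (h2.congr_of_eventuallyEq ?_)
    have hopen : {t : ℝ | (t, z) ∈ HΩ ρ e e} ∈ 𝓝 (0:ℝ) :=
      ((isOpen_HΩ hρ).preimage (Continuous.prodMk continuous_id continuous_const : Continuous (fun t : ℝ => (t, z)))).mem_nhds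
        (mem_HΩ_zero hρ hz)
    filter_upwards [hopen] with t ht
    exact fderiv_HF_I hρ he he ht v

theorem differentiableOn_vF (hρ : IsHolFlow E ρ)
    (he : e ∈ maximalAtlas 𝓘(ℂ, E) 1 M) : DifferentiableOn ℂ (vF ρ e) e.target :=
  ((differentiableOn_xF hρ he).const_smul I).neg

theorem contDiffOn_vF (hρ : IsHolFlow E ρ)
    (he : e ∈ maximalAtlas 𝓘(ℂ, E) 1 M) : ContDiffOn ℂ ∞ (vF ρ e) e.target :=
  contDiffOn_of_differentiableOn_complex e.open_target (differentiableOn_vF hρ he)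

/-- the generator is invariant and natural -/
theorem xF_change (hρ : IsHolFlow E ρ) (he : e ∈ maximalAtlas 𝓘(ℂ, E) 1 M)
    (he' : e' ∈ maximalAtlas 𝓘(ℂ, E) 1 M) {s : ℝ} {z : E} (hz : (s, z) ∈ HΩ ρ e e') :
    fderiv ℝ (fun w => HF ρ e e' (s, w)) z (xF ρ e z) = xF ρ e' (HF ρ e e' (s, z)) := by
  have h1 := hasDerivAt_HF_left hρ he he (mem_HΩ_zero hρ hz.1)
  rw [← xF_eq hρ he hz.1] at h1
  have h0 : HF ρ e e (0, z) = z := by simp [HF, hρ.zero, e.right_inv hz.1]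
  have h2 := hasFDerivAt_HF_right hρ he he' hz
  rw [h2.fderiv]
  have h3 : HasFDerivAt (fun w => HF ρ e e' (s, w))
      ((fderiv ℝ (HF ρ e e') (s, z)).comp (ContinuousLinearMap.inr ℝ ℝ E)) (HF ρ e e (0, z)) := by
    rw [h0]; exact h2
  have h4 := h3.comp_hasDerivAt (0:ℝ) h1
  have hz' : HF ρ e e' (s, z) ∈ e'.target := e'.map_source hz.2
  have h5 : (fun t : ℝ => e' (ρ t (e'.symm (HF ρ e e' (s, z))))) =ᶠ[𝓝 0]
      ((fun w => HF ρ e e' (s, w)) ∘ fun t => HF ρ e e (t, z)) := by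
    have hopen : {t : ℝ | (t, z) ∈ HΩ ρ e e} ∈ 𝓝 (0:ℝ) :=
      ((isOpen_HΩ hρ).preimage (Continuous.prodMk continuous_id continuous_const : Continuous (fun t : ℝ => (t, z)))).mem_nhds
        (mem_HΩ_zero hρ hz.1)
    filter_upwards [hopen] with t ht
    simp only [HF, Function.comp_apply]
    rw [e'.left_inv hz.2, e.left_inv ht.2, ← hρ.add, ← hρ.add, add_comm]
  have h6 := (h4.congr_of_eventuallyEq h5).deriv
  exact h6.symm

theorem vF_change (hρ : IsHolFlow E ρ) (he : e ∈ maximalAtlas 𝓘(ℂ, E) 1 M)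
    (he' : e' ∈ maximalAtlas 𝓘(ℂ, E) 1 M) {s : ℝ} {z : E} (hz : (s, z) ∈ HΩ ρ e e') :
    fderiv ℝ (fun w => HF ρ e e' (s, w)) z (vF ρ e z) = vF ρ e' (HF ρ e e' (s, z)) := by
  rw [vF, vF, map_neg, ← xF_change hρ he he' hz]
  congr 1
  have h1 := (HΩ_slice_holo hρ he he' hz).hasFDerivAt.restrictScalars ℝ
  rw [h1.fderiv]
  exact map_smul (fderiv ℂ (fun w => HF ρ e e' (s, w)) z) I (xF ρ e z)

end Vale.Agent.P253.R2.H156
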