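import Vale.Agent.P253.R2.H156.RR1
import Vale.Agent.P281.MF.Hol
import Vale.Agent.P250.H3.Lim

/-!
P253, Rosay-Rudin without normal forms, part 2: polynomial functions, Taylor approximation in
local coordinates, the local model of an attracting map.
-/

open Module Module.End Set Metric Filter Topology Asymptotics

set_option linter.unusedSectionVars false

noncomputable section

namespace Vale.Agent.P253.R2.H156.RR

section words

/-- a word in the coordinates -/
def wd {ι : Type*} {j : ℕ} (w : Fin j → ι) : (ι → ℂ) → ℂ := fun y => ∏ l, y (w l)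

/-- words of length `≤ k` -/
abbrev Wd (ι : Type*) (k : ℕ) := Σ j : Fin (k + 1), (Fin j → ι)

/-- polynomial functions of degree `≤ k` -/
def Pk (ι : Type*) (k : ℕ) : Submodule ℂ ((ι → ℂ) → ℂ) :=
  Submodule.span ℂ (range fun w : Wd ι k => wd w.2)

instance (ι : Type*) [Finite ι] (k : ℕ) : FiniteDimensional ℂ (Pk ι k) :=
  FiniteDimensional.span_of_finite ℂ (finite_range _)

theorem wd_mem {ι : Type*} {k j : ℕ} (hj : j ≤ k) (w : Fin j → ι) : wd w ∈ Pk ι k :=
  Submodule.subset_span ⟨⟨⟨j, by omega⟩, w⟩, rfl⟩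

theorem differentiable_wd {ι : Type*} [Fintype ι] {j : ℕ} (w : Fin j → ι) :
    Differentiable ℂ (wd w) := by
  unfold wd
  fun_prop

theorem differentiable_of_mem {ι : Type*} [Fintype ι] {k : ℕ} {P : (ι → ℂ) → ℂ}
    (hP : P ∈ Pk ι k) : Differentiable ℂ P := by
  induction hP using Submodule.span_induction with
  | mem x hx =>
    obtain ⟨w, rfl⟩ := hx
    exact differentiable_wd _
  | zero => exact differentiable_const 0
  | add x y _ _ hx hy => exact hx.add hy
  | smul a x _ hx => exact hx.const_smul a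

/-- a homogeneous polynomial given by a multilinear map -/
theorem multilinear_mem {ι : Type*} [Fintype ι] {k j : ℕ} (hj : j ≤ k)
    (m : ContinuousMultilinearMap ℂ (fun _ : Fin j => (ι → ℂ)) ℂ) :
    (fun y => m fun _ => y) ∈ Pk ι k := by
  classical
  have h1 : (fun y => m fun _ => y) = ∑ w : Fin j → ι,
      (m fun l => Pi.single (w l) (1 : ℂ)) • wd w := by
    funext y
    have h2 : (fun _ : Fin j => y) = fun _ : Fin j => ∑ i, y i • (Pi.single i (1 : ℂ) : ι → ℂ) := by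
      funext _
      exact pi_eq_sum_univ' y
    rw [h2]
    change m.toMultilinearMap _ = _
    rw [MultilinearMap.map_sum]
    simp only [MultilinearMap.map_smul_univ, Finset.sum_apply, Pi.smul_apply, wd, smul_eq_mul]
    refine Finset.sum_congr rfl fun w _ => ?_
    rw [mul_comm]
    rfl
  rw [h1]
  exact Submodule.sum_mem _ fun w _ => Submodule.smul_mem _ _ (wd_mem hj w)

/-- Taylor polynomials -/
theorem exists_taylor {ι : Type*} [Fintype ι] {g : (ι → ℂ) → ℂ} (hg : AnalyticAt ℂ g 0) (k : ℕ) :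
    ∃ P ∈ Pk ι k, (fun y => g y - P y) =O[𝓝 0] fun y : ι → ℂ => ‖y‖ ^ (k + 1) := by
  obtain ⟨p, hp⟩ := hg
  refine ⟨fun y => p.partialSum (k + 1) y, ?_, ?_⟩
  · have h1 : (fun y => p.partialSum (k + 1) y) =
        ∑ j ∈ Finset.range (k + 1), fun y => p j fun _ => y := by
      funext y
      simp [FormalMultilinearSeries.partialSum]
    rw [h1]
    refine Submodule.sum_mem _ fun j hj => multilinear_mem ?_ _
    rw [Finset.mem_range] at hj
    omega
  · have := hp.isBigO_sub_partialSum_pow (k + 1)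
    simpa only [zero_add] using this

end words

section taylor

variable {E : Type*} [NormedAddCommGroup E] [NormedSpace ℂ E] [FiniteDimensional ℂ E]
  {X : Type*}

theorem analyticAt_of_eventually {F : Type*} [NormedAddCommGroup F] [NormedSpace ℂ F]
    [CompleteSpace F] {f : E → F} {x : E}
    (h : ∀ᶠ z in 𝓝 x, DifferentiableAt ℂ f z) : AnalyticAt ℂ f x := by
  obtain ⟨U, hU, hUo, hx⟩ := _root_.eventually_nhds_iff.1 h
  exact Vale.Agent.P281.MF.analyticAt_of_differentiableOn hUo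
    (fun z hz => (hU z hz).differentiableWithinAt) hx

/-- Taylor approximation in a coordinate system -/
theorem exists_taylor_coord {ι : Type*} [Fintype ι] {G : E → ι → ℂ}
    (hG : ∀ᶠ z in 𝓝 (0 : E), DifferentiableAt ℂ G z) (hG0 : G 0 = 0) {L : E ≃L[ℂ] (ι → ℂ)}
    (hL : HasFDerivAt G (L : E →L[ℂ] ι → ℂ) 0) {f : E → ℂ}
    (hf : ∀ᶠ z in 𝓝 (0 : E), DifferentiableAt ℂ f z) (k : ℕ) :
    ∃ P ∈ Pk ι k, (fun z => f z - P (G z)) =O[𝓝 0] fun z : E => ‖z‖ ^ (k + 1) := by
  have hGa : AnalyticAt ℂ G 0 := analyticAt_of_eventually hG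
  have hs : HasStrictFDerivAt G (L : E →L[ℂ] ι → ℂ) 0 := by
    have := hGa.hasStrictFDerivAt
    rwa [hL.fderiv] at this
  set τ := hs.localInverse G L 0 with hτ
  have hτ1 : ∀ᶠ z in 𝓝 (0 : E), τ (G z) = z := hs.eventually_left_inverse
  have hτ0 : τ 0 = 0 := by
    have := hs.localInverse_apply_image
    rwa [hG0] at this
  have hcd : ContDiffAt ℂ 1 G 0 := hGa.contDiffAt
  have hτc : ContDiffAt ℂ 1 τ 0 := by
    have := hcd.to_localInverse hL (by norm_num)
    rw [hG0] at this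
    exact this
  have hτd : ∀ᶠ y in 𝓝 (0 : ι → ℂ), DifferentiableAt ℂ τ y :=
    (hτc.eventually (by norm_num)).mono fun y hy => hy.differentiableAt (by norm_num)
  have hτt : Tendsto τ (𝓝 0) (𝓝 0) := by
    have := hτc.continuousAt
    rwa [ContinuousAt, hτ0] at this
  have hga : AnalyticAt ℂ (f ∘ τ) 0 := by
    apply analyticAt_of_eventually
    filter_upwards [hτd, hτt.eventually hf] with y h1 h2
    exact h2.comp y h1
  obtain ⟨P, hP, hO⟩ := exists_taylor hga k
  refine ⟨P, hP, ?_⟩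
  have hGt : Tendsto G (𝓝 0) (𝓝 0) := by
    have := hL.continuousAt
    rwa [ContinuousAt, hG0] at this
  have h1 := hO.comp_tendsto hGt
  have h2 : (fun z => G z) =O[𝓝 0] fun z : E => z := by
    have := hL.isBigO_sub
    simpa [hG0] using this
  have h3 : (fun z => ‖G z‖ ^ (k + 1)) =O[𝓝 0] fun z : E => ‖z‖ ^ (k + 1) := h2.norm_norm.pow _
  refine (h1.trans h3).congr' ?_ EventuallyEq.rfl
  filter_upwards [hτ1] with z hz
  simp [hz]

end taylor

section model

variable {E : Type*} [NormedAddCommGroup E] [NormedSpace ℂ E] {X : Type*}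

/-- local model of an attracting map -/
structure Mod (T : X → X) (s : E → X) (c : X → E) (S : E → E) (r : ℝ) : Prop where
  pos : 0 < r
  diff : DifferentiableOn ℂ S (ball 0 r)
  semi : ∀ z ∈ ball (0 : E) r, T (s z) = s (S z)
  contr : ∀ z ∈ ball (0 : E) r, ‖S z‖ ≤ ‖z‖ / 2
  left : ∀ z ∈ ball (0 : E) r, c (s z) = z
  basin : ∀ x, ∃ m : ℕ, ∃ z ∈ ball (0 : E) r, T^[m] x = s z

/-- functions on `X` holomorphic near the fixed point and vanishing there -/
def ol (s : E → X) : Submodule ℂ (X → ℂ) where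
  carrier := {f | (∀ᶠ z in 𝓝 (0 : E), DifferentiableAt ℂ (f ∘ s) z) ∧ f (s 0) = 0}
  add_mem' := by
    rintro f g ⟨hf, hf0⟩ ⟨hg, hg0⟩
    refine ⟨?_, by simp [hf0, hg0]⟩
    filter_upwards [hf, hg] with z h1 h2 using h1.add h2
  zero_mem' := ⟨Eventually.of_forall fun z => differentiableAt_const _, rfl⟩
  smul_mem' := by
    rintro a f ⟨hf, hf0⟩
    refine ⟨?_, by simp [hf0]⟩
    filter_upwards [hf] with z h1 using h1.const_smul a

/-- functions on `X` vanishing to order `k + 1` at the fixed point -/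
def hk (s : E → X) (k : ℕ) : Submodule ℂ (X → ℂ) where
  carrier := {f | (f ∘ s) =O[𝓝 0] fun z : E => ‖z‖ ^ (k + 1)}
  add_mem' := fun hf hg => IsBigO.add hf hg
  zero_mem' := isBigO_zero _ _
  smul_mem' := fun a _ hf => IsBigO.const_smul_left hf a

/-- composition with `T` -/
def ts (T : X → X) : (X → ℂ) →ₐ[ℂ] (X → ℂ) where
  toFun f := f ∘ T
  map_one' := rfl
  map_mul' _ _ := rfl
  map_zero' := rfl
  map_add' _ _ := rfl
  commutes' _ := rfl

theorem ts_apply (T : X → X) (f : X → ℂ) (x : X) : ts T f x = f (T x) := rfl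

theorem val_eq_zero {s : E → X} {k : ℕ} {f : X → ℂ} (hf : f ∈ hk s k) : f (s 0) = 0 := by
  have h1 : (f ∘ s) =O[𝓝 0] fun z : E => ‖z‖ ^ (k + 1) := hf
  obtain ⟨C, hC⟩ := h1.bound
  have := hC.self_of_nhds
  simpa using this

theorem bound_of_mem {s : E → X} {k : ℕ} {f : X → ℂ} (hf : f ∈ hk s k) :
    ∃ C ρ : ℝ, 0 ≤ C ∧ 0 < ρ ∧ ∀ z ∈ ball (0 : E) ρ, ‖f (s z)‖ ≤ C * ‖z‖ ^ (k + 1) := by
  have h1 : (f ∘ s) =O[𝓝 0] fun z : E => ‖z‖ ^ (k + 1) := hf
  obtain ⟨C, hC0, hC⟩ := h1.exists_nonneg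
  obtain ⟨ρ, hρ, h⟩ := Metric.eventually_nhds_iff_ball.1 hC.bound
  refine ⟨C, ρ, hC0, hρ, fun z hz => ?_⟩
  simpa using h z hz

namespace Mod

variable {T : X → X} {s : E → X} {c : X → E} {S : E → E} {r : ℝ}

theorem S_zero (h : Mod T s c S r) : S 0 = 0 := by
  have := h.contr 0 (mem_ball_self h.pos)
  simpa using this

theorem S_mem (h : Mod T s c S r) {ρ : ℝ} (hρ : ρ ≤ r) {z : E} (hz : z ∈ ball (0 : E) ρ) :
    S z ∈ ball (0 : E) ρ := by
  have h1 := h.contr z (ball_subset_ball hρ hz)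
  rw [mem_ball_zero_iff] at hz ⊢
  linarith [norm_nonneg z]

theorem iter_mem (h : Mod T s c S r) {ρ : ℝ} (hρ : ρ ≤ r) {z : E} (hz : z ∈ ball (0 : E) ρ)
    (m : ℕ) : S^[m] z ∈ ball (0 : E) ρ := by
  induction m with
  | zero => exact hz
  | succ m ih =>
    rw [Function.iterate_succ_apply']
    exact h.S_mem hρ ih

theorem iter_norm (h : Mod T s c S r) {z : E} (hz : z ∈ ball (0 : E) r) (m : ℕ) :
    ‖S^[m] z‖ ≤ (1 / 2) ^ m * ‖z‖ := by
  induction m with
  | zero => simp
  | succ m ih =>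
    rw [Function.iterate_succ_apply', pow_succ]
    have := h.contr _ (h.iter_mem le_rfl hz m)
    linarith

theorem iter_semi (h : Mod T s c S r) {z : E} (hz : z ∈ ball (0 : E) r) (m : ℕ) :
    T^[m] (s z) = s (S^[m] z) := by
  induction m with
  | zero => rfl
  | succ m ih =>
    rw [Function.iterate_succ_apply', ih, h.semi _ (h.iter_mem le_rfl hz m),
      Function.iterate_succ_apply']

theorem exists_iter (h : Mod T s c S r) {ρ : ℝ} (hρ : 0 < ρ) (x : X) :
    ∃ m : ℕ, ∃ z ∈ ball (0 : E) ρ, z ∈ ball (0 : E) r ∧ T^[m] x = s z := by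
  obtain ⟨m, z, hz, hx⟩ := h.basin x
  have h1 : Tendsto (fun j : ℕ => (1 / 2 : ℝ) ^ j * ‖z‖) atTop (𝓝 0) := by
    have := (tendsto_pow_atTop_nhds_zero_of_lt_one (r := (1 / 2 : ℝ)) (by norm_num)
      (by norm_num)).mul_const ‖z‖
    simpa using this
  obtain ⟨j, hj⟩ := (h1.eventually_lt_const hρ).exists
  refine ⟨j + m, S^[j] z, ?_, h.iter_mem le_rfl hz j, ?_⟩
  · rw [mem_ball_zero_iff]
    exact (h.iter_norm hz j).trans_lt hj
  · rw [Function.iterate_add_apply, hx, h.iter_semi hz]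

theorem T_fix (h : Mod T s c S r) : T (s 0) = s 0 := by
  rw [h.semi 0 (mem_ball_self h.pos), h.S_zero]

theorem S_diff (h : Mod T s c S r) : ∀ᶠ z in 𝓝 (0 : E), DifferentiableAt ℂ S z := by
  filter_upwards [ball_mem_nhds (0 : E) h.pos] with z hz
  exact h.diff.differentiableAt (isOpen_ball.mem_nhds hz)

theorem S_tendsto (h : Mod T s c S r) : Tendsto S (𝓝 0) (𝓝 0) := by
  have := h.S_diff.self_of_nhds.continuousAt
  rwa [ContinuousAt, h.S_zero] at this

theorem comp_eq (h : Mod T s c S r) (f : X → ℂ) : (ts T f) ∘ s =ᶠ[𝓝 0] (f ∘ s) ∘ S := by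
  filter_upwards [ball_mem_nhds (0 : E) h.pos] with z hz
  simp [ts_apply, h.semi z hz]

theorem ts_mem_ol (h : Mod T s c S r) {f : X → ℂ} (hf : f ∈ ol s) : ts T f ∈ ol s := by
  refine ⟨?_, by rw [ts_apply, h.T_fix, hf.2]⟩
  have h1 : ∀ᶠ z in 𝓝 (0 : E), DifferentiableAt ℂ ((f ∘ s) ∘ S) z := by
    filter_upwards [h.S_diff, h.S_tendsto.eventually hf.1] with z h1 h2 using h2.comp z h1
  filter_upwards [h1, (h.comp_eq f).eventuallyEq_nhds] with z h2 h3
  exact h2.congr_of_eventuallyEq h3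

theorem ts_mem_hk (h : Mod T s c S r) {k : ℕ} {f : X → ℂ} (hf : f ∈ hk s k) : ts T f ∈ hk s k := by
  have h1 : (f ∘ s) =O[𝓝 0] fun z : E => ‖z‖ ^ (k + 1) := hf
  have h2 := h1.comp_tendsto h.S_tendsto
  have h3 : ((fun z : E => ‖z‖ ^ (k + 1)) ∘ S) =O[𝓝 0] fun z : E => ‖z‖ ^ (k + 1) := by
    refine IsBigO.of_bound 1 ?_
    filter_upwards [ball_mem_nhds (0 : E) h.pos] with z hz
    simp only [Function.comp_apply, norm_pow, norm_norm, one_mul]
    have := h.contr z hz
    exact pow_le_pow_left₀ (norm_nonneg _) (by linarith [norm_nonneg z]) _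
  exact (h2.trans h3).congr' (h.comp_eq f).symm EventuallyEq.rfl

end Mod

end model

end Vale.Agent.P253.R2.H156.RR
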