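import Vale.Agent.P253.R2.H156.RR2

/-!
P253, Rosay-Rudin without normal forms, part 3: `T^* - μ` is bijective on functions vanishing to
high order.
-/

open Module Module.End Set Metric Filter Topology Asymptotics

set_option linter.unusedSectionVars false

noncomputable section

namespace Vale.Agent.P253.R2.H156.RR

namespace Mod

variable {E : Type*} [NormedAddCommGroup E] [NormedSpace ℂ E] {X : Type*}
  {T : X → X} {s : E → X} {c : X → E} {S : E → E} {r : ℝ}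

theorem sub_mem_hk (h : Mod T s c S r) {k : ℕ} {f : X → ℂ} (hf : f ∈ hk s k) (μ : ℂ) :
    ((ts T).toLinearMap - μ • (1 : End ℂ (X → ℂ))) f ∈ hk s k :=
  Submodule.sub_mem _ (h.ts_mem_hk hf) (Submodule.smul_mem _ _ hf)

theorem sub_mem_ol (h : Mod T s c S r) {f : X → ℂ} (hf : f ∈ ol s) (μ : ℂ) :
    ((ts T).toLinearMap - μ • (1 : End ℂ (X → ℂ))) f ∈ ol s :=
  Submodule.sub_mem _ (h.ts_mem_ol hf) (Submodule.smul_mem _ _ hf)

theorem q_lt {μ : ℂ} {k : ℕ} (hμ : 1 < ‖μ‖ * 2 ^ (k + 1)) :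
    μ ≠ 0 ∧ 0 ≤ ‖μ‖⁻¹ * (1 / 2) ^ (k + 1) ∧ ‖μ‖⁻¹ * (1 / 2) ^ (k + 1) < 1 := by
  have h0 : μ ≠ 0 := by
    rintro rfl
    norm_num at hμ
  have h1 : 0 < ‖μ‖ := norm_pos_iff.2 h0
  refine ⟨h0, by positivity, ?_⟩
  rw [one_div, inv_pow, ← mul_inv]
  exact inv_lt_one_of_one_lt₀ hμ

/-- the terms of the series -/
def tm (T : X → X) (μ : ℂ) (f : X → ℂ) (m : ℕ) (x : X) : ℂ := (μ ^ (m + 1))⁻¹ * f (T^[m] x)

theorem tm_bound (h : Mod T s c S r) {k : ℕ} {μ : ℂ} {f : X → ℂ} {C ρ : ℝ} (hρ : ρ ≤ r)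
    (hC0 : 0 ≤ C)
    (hC : ∀ z ∈ ball (0 : E) ρ, ‖f (s z)‖ ≤ C * ‖z‖ ^ (k + 1)) {z : E} (hz : z ∈ ball (0 : E) ρ)
    (m : ℕ) : ‖tm T μ f m (s z)‖ ≤
      (‖μ‖⁻¹ * C * ‖z‖ ^ (k + 1)) * (‖μ‖⁻¹ * (1 / 2) ^ (k + 1)) ^ m := by
  have hzr : z ∈ ball (0 : E) r := ball_subset_ball hρ hz
  have h1 := hC _ (h.iter_mem hρ hz m)
  have h2 := h.iter_norm hzr m
  rw [tm, h.iter_semi hzr, norm_mul, norm_inv, norm_pow]
  calc (‖μ‖ ^ (m + 1))⁻¹ * ‖f (s (S^[m] z))‖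
      ≤ (‖μ‖ ^ (m + 1))⁻¹ * (C * ((1 / 2) ^ m * ‖z‖) ^ (k + 1)) := by
        gcongr
        refine h1.trans ?_
        gcongr
    _ = (‖μ‖⁻¹ * C * ‖z‖ ^ (k + 1)) * (‖μ‖⁻¹ * (1 / 2) ^ (k + 1)) ^ m := by
        rw [mul_pow, mul_pow, ← inv_pow, pow_succ (‖μ‖⁻¹) m, ← pow_mul, ← pow_mul, mul_comm m]
        ring

theorem tm_add (T : X → X) (μ : ℂ) (f : X → ℂ) (m j : ℕ) (x : X) :
    tm T μ f (j + m) x = (μ ^ m)⁻¹ * tm T μ f j (T^[m] x) := by
  rw [tm, tm, Function.iterate_add_apply, ← mul_assoc, ← mul_inv, ← pow_add]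
  congr 3
  ring

theorem summable_tm (h : Mod T s c S r) {k : ℕ} {μ : ℂ} (hμ : 1 < ‖μ‖ * 2 ^ (k + 1)) {f : X → ℂ}
    (hf : f ∈ hk s k) (x : X) : Summable fun m => tm T μ f m x := by
  obtain ⟨C, ρ, hC0, hρ, hC⟩ := bound_of_mem hf
  obtain ⟨h0, h1, h2⟩ := q_lt hμ
  obtain ⟨m, z, hz, hzr, hx⟩ := h.exists_iter (lt_min hρ h.pos) x
  have hs : Summable fun j => tm T μ f j (s z) := by
    refine Summable.of_norm_bounded ((summable_geometric_of_lt_one h1 h2).mul_left _)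
      fun j => h.tm_bound (min_le_right ρ r) hC0
        (fun z hz => hC z (ball_subset_ball (min_le_left _ _) hz)) hz j
  rw [← summable_nat_add_iff m]
  simp only [tm_add, hx]
  exact hs.mul_left _

/-- uniqueness -/
theorem eq_zero_of_sub (h : Mod T s c S r) {k : ℕ} {μ : ℂ} (hμ : 1 < ‖μ‖ * 2 ^ (k + 1))
    {f : X → ℂ} (hf : f ∈ hk s k) (he : ∀ x, f (T x) = μ * f x) : f = 0 := by
  obtain ⟨h0, -, -⟩ := q_lt hμ
  funext x
  have h1 := (h.summable_tm hμ hf x).tendsto_atTop_zero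
  have h2 : ∀ m, f (T^[m] x) = μ ^ m * f x := by
    intro m
    induction m with
    | zero => simp
    | succ m ih => rw [Function.iterate_succ_apply', he, ih, pow_succ]; ring
  have h3 : (fun m => tm T μ f m x) = fun _ => μ⁻¹ * f x := by
    funext m
    rw [tm, h2, pow_succ]
    field_simp
  rw [h3] at h1
  have h4 := tendsto_nhds_unique h1 tendsto_const_nhds
  have : μ⁻¹ * f x = 0 := h4.symm
  simpa [h0] using this

theorem eq_zero_of_mem (h : Mod T s c S r) {k : ℕ} {μ : ℂ} (hμ : 1 < ‖μ‖ * 2 ^ (k + 1))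
    {f : X → ℂ} (hf : f ∈ hk s k) (he : f ∈ maxGenEigenspace (ts T).toLinearMap μ) : f = 0 := by
  rw [mem_maxGenEigenspace] at he
  obtain ⟨N, hN⟩ := he
  induction N generalizing f with
  | zero => simpa using hN
  | succ N ih =>
    rw [pow_succ] at hN
    have h1 := ih (h.sub_mem_hk hf μ) hN
    refine h.eq_zero_of_sub hμ hf fun x => ?_
    have h2 := congrFun h1 x
    simpa [sub_eq_zero, ts_apply] using h2

/-- solving `T^* u - μ u = f` -/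
theorem exists_sub_eq [FiniteDimensional ℂ E] (h : Mod T s c S r) {k : ℕ} {μ : ℂ}
    (hμ : 1 < ‖μ‖ * 2 ^ (k + 1))
    {f : X → ℂ} (hf : f ∈ hk s k) (hf' : f ∈ ol s) :
    ∃ u, u ∈ hk s k ∧ u ∈ ol s ∧ ((ts T).toLinearMap - μ • (1 : End ℂ (X → ℂ))) u = f := by
  obtain ⟨C, ρ, hC0, hρ, hC⟩ := bound_of_mem hf
  obtain ⟨h0, hq0, hq1⟩ := q_lt hμ
  have hsum := h.summable_tm hμ hf
  set u : X → ℂ := fun x => - ∑' m, tm T μ f m x with hu
  obtain ⟨ρd, hρd, hd⟩ := Metric.eventually_nhds_iff_ball.1 hf'.1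
  set ρ' := min (min ρ ρd) r with hρ'
  have hρ'0 : 0 < ρ' := lt_min (lt_min hρ hρd) h.pos
  have hρ'r : ρ' ≤ r := min_le_right _ _
  have hC' : ∀ z ∈ ball (0 : E) ρ', ‖f (s z)‖ ≤ C * ‖z‖ ^ (k + 1) := fun z hz =>
    hC z (ball_subset_ball ((min_le_left _ _).trans (min_le_left _ _)) hz)
  have hgeo := summable_geometric_of_lt_one hq0 hq1
  have hub : ∀ z ∈ ball (0 : E) ρ', ‖u (s z)‖ ≤
      (‖μ‖⁻¹ * C * (1 - ‖μ‖⁻¹ * (1 / 2) ^ (k + 1))⁻¹) * ‖z‖ ^ (k + 1) := by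
    intro z hz
    rw [hu]
    simp only [norm_neg]
    have h2 : HasSum (fun m => (‖μ‖⁻¹ * C * ‖z‖ ^ (k + 1)) * (‖μ‖⁻¹ * (1 / 2) ^ (k + 1)) ^ m)
        ((‖μ‖⁻¹ * C * ‖z‖ ^ (k + 1)) * (1 - ‖μ‖⁻¹ * (1 / 2) ^ (k + 1))⁻¹) :=
      (hasSum_geometric_of_lt_one hq0 hq1).mul_left _
    have h3 := tsum_of_norm_bounded h2 (fun m => h.tm_bound (μ := μ) hρ'r hC0 hC' hz m)
    calc _ ≤ _ := h3
      _ = _ := by ring
  have huk : u ∈ hk s k := by
    change (u ∘ s) =O[𝓝 0] fun z : E => ‖z‖ ^ (k + 1)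
    refine IsBigO.of_bound (‖μ‖⁻¹ * C * (1 - ‖μ‖⁻¹ * (1 / 2) ^ (k + 1))⁻¹) ?_
    filter_upwards [ball_mem_nhds (0 : E) hρ'0] with z hz
    simpa using hub z hz
  have huo : u ∈ ol s := by
    refine ⟨?_, val_eq_zero huk⟩
    have hdiff : ∀ m, DifferentiableOn ℂ (fun z => tm T μ f m (s z)) (ball 0 ρ') := by
      intro m
      have h1 : DifferentiableOn ℂ (S^[m]) (ball 0 ρ') :=
        (h.diff.mono (ball_subset_ball hρ'r)).iterate (fun z hz => h.S_mem hρ'r hz) m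
      have h2 : DifferentiableOn ℂ (fun z => (μ ^ (m + 1))⁻¹ * (f ∘ s) (S^[m] z)) (ball 0 ρ') := by
        refine DifferentiableOn.const_mul ?_ _
        intro z hz
        have h3 := hd _ (ball_subset_ball ((min_le_left _ _).trans (min_le_right _ _))
          (h.iter_mem hρ'r hz m))
        exact DifferentiableAt.comp_differentiableWithinAt (g := f ∘ s) z h3 (h1 z hz)
      refine h2.congr fun z hz => ?_
      rw [tm, h.iter_semi (ball_subset_ball hρ'r hz)]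
      rfl
    have hunif : TendstoUniformlyOn (fun N z => ∑ m ∈ Finset.range N, tm T μ f m (s z))
        (fun z => ∑' m, tm T μ f m (s z)) atTop (ball (0 : E) ρ') := by
      refine tendstoUniformlyOn_tsum_nat
        (u := fun m => (‖μ‖⁻¹ * C * ρ' ^ (k + 1)) * (‖μ‖⁻¹ * (1 / 2) ^ (k + 1)) ^ m)
        (hgeo.mul_left _) fun m z hz => ?_
      refine (h.tm_bound hρ'r hC0 hC' hz m).trans ?_
      rw [mem_ball_zero_iff] at hz
      gcongr
    have h4 := Vale.Agent.P250.H3.holo_of_tendstoLocallyUniformlyOn isOpen_ball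
      (fun N => DifferentiableOn.fun_sum fun m _ => hdiff m) hunif.tendstoLocallyUniformlyOn
    filter_upwards [ball_mem_nhds (0 : E) hρ'0] with z hz
    exact (h4.differentiableAt (isOpen_ball.mem_nhds hz)).neg
  refine ⟨u, huk, huo, ?_⟩
  funext x
  have h5 : u (T x) = - ∑' m, (μ ^ (m + 1))⁻¹ * f (T^[m + 1] x) := by
    simp only [hu, tm, Function.iterate_succ_apply]
  have h6 : μ * u x = -(f x + ∑' m, (μ ^ (m + 1))⁻¹ * f (T^[m + 1] x)) := by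
    have h7 : Summable fun m => μ * tm T μ f m x := (hsum x).mul_left μ
    have h8 : μ * u x = - ∑' m, μ * tm T μ f m x := by
      rw [hu, tsum_mul_left]; ring
    have h9 : ∀ m, μ * tm T μ f m x = (μ ^ m)⁻¹ * f (T^[m] x) := by
      intro m
      rw [tm, pow_succ]
      field_simp
    rw [h8, h7.tsum_eq_zero_add]
    simp only [h9, pow_zero, inv_one, one_mul, Function.iterate_zero, id_eq]
  simp only [LinearMap.sub_apply, LinearMap.smul_apply, End.one_apply, AlgHom.toLinearMap_apply,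
    Pi.sub_apply, Pi.smul_apply, smul_eq_mul, ts_apply]
  rw [h5, h6]
  ring

theorem exists_pow_eq [FiniteDimensional ℂ E] (h : Mod T s c S r) {k : ℕ} {μ : ℂ}
    (hμ : 1 < ‖μ‖ * 2 ^ (k + 1)) (N : ℕ)
    {f : X → ℂ} (hf : f ∈ hk s k) (hf' : f ∈ ol s) :
    ∃ u, u ∈ hk s k ∧ u ∈ ol s ∧ (((ts T).toLinearMap - μ • (1 : End ℂ (X → ℂ))) ^ N) u = f := by
  induction N with
  | zero => exact ⟨f, hf, hf', by simp⟩
  | succ N ih =>
    obtain ⟨v, hv, hv', hvf⟩ := ih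
    obtain ⟨u, hu, hu', huv⟩ := h.exists_sub_eq hμ hv hv'
    refine ⟨u, hu, hu', ?_⟩
    rw [pow_succ]
    change (((ts T).toLinearMap - μ • (1 : End ℂ (X → ℂ))) ^ N)
      (((ts T).toLinearMap - μ • (1 : End ℂ (X → ℂ))) u) = f
    rw [huv, hvf]

end Mod

end Vale.Agent.P253.R2.H156.RR
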