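import Vale.Agent.P253.R2.H156.RR3

/-!
P253, Rosay-Rudin without normal forms, part 4: generalized eigenfunctions of `T^*` with independent
differentials; all generalized eigenfunctions with the same eigenvalues are polynomials in them.
-/

open Module Module.End Set Metric Filter Topology Asymptotics

set_option linter.unusedSectionVars false

noncomputable section

namespace Vale.Agent.P253.R2.H156.RR

section diffl

variable {E : Type*} [NormedAddCommGroup E] [NormedSpace ℂ E] {X : Type*} {s : E → X}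

theorem diffAt {f : X → ℂ} (hf : f ∈ ol s) : DifferentiableAt ℂ (f ∘ s) 0 :=
  hf.1.self_of_nhds

/-- the differential at the fixed point -/
def dl (s : E → X) : ol s →ₗ[ℂ] Dual ℂ E where
  toFun f := (fderiv ℂ (f.1 ∘ s) 0 : E →L[ℂ] ℂ).toLinearMap
  map_add' f g := by
    have h1 : ((f + g : ol s).1 ∘ s) = (f.1 ∘ s) + (g.1 ∘ s) := rfl
    rw [h1, fderiv_add (diffAt f.2) (diffAt g.2)]
    rfl
  map_smul' a f := by
    have h1 : ((a • f : ol s).1 ∘ s) = a • (f.1 ∘ s) := rfl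
    rw [h1, fderiv_const_smul (diffAt f.2)]
    rfl

theorem dl_apply (f : ol s) (v : E) : dl s f v = fderiv ℂ (f.1 ∘ s) 0 v := rfl

theorem fderiv_eq_zero_of_mem {k : ℕ} (hk1 : 1 ≤ k) {f : X → ℂ} (hf : f ∈ hk s k) :
    fderiv ℂ (f ∘ s) 0 = 0 := by
  have h1 : (f ∘ s) =O[𝓝 0] fun z : E => ‖z‖ ^ (k + 1) := hf
  have h2 : (f ∘ s) =o[𝓝 0] fun z : E => z :=
    h1.trans_isLittleO (isLittleO_norm_pow_id (by omega))
  have h3 : HasFDerivAt (f ∘ s) (0 : E →L[ℂ] ℂ) 0 := by
    rw [hasFDerivAt_iff_isLittleO_nhds_zero]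
    have h4 : f (s 0) = 0 := val_eq_zero hf
    simpa [h4, Function.comp_def] using h2
  exact h3.fderiv

end diffl

namespace Mod

variable {E : Type*} [NormedAddCommGroup E] [NormedSpace ℂ E] [FiniteDimensional ℂ E] {X : Type*}
  {T : X → X} {s : E → X} {c : X → E} {S : E → E} {r : ℝ}

/-- `T^*` on holomorphic germs -/
def tv (h : Mod T s c S r) : End ℂ (ol s) :=
  (ts T).toLinearMap.restrict fun _ hf => h.ts_mem_ol hf

theorem dl_tv (h : Mod T s c S r) (f : ol s) :
    dl s (h.tv f) = (fderiv ℂ S 0 : E →L[ℂ] E).toLinearMap.dualMap (dl s f) := by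
  ext v
  rw [dl_apply, LinearMap.dualMap_apply, dl_apply]
  have h1 : ((h.tv f).1 ∘ s) =ᶠ[𝓝 0] (f.1 ∘ s) ∘ S := h.comp_eq f.1
  have h2 : DifferentiableAt ℂ (f.1 ∘ s) (S 0) := by rw [h.S_zero]; exact diffAt f.2
  rw [h1.fderiv_eq, fderiv_comp (0 : E) h2 h.S_diff.self_of_nhds, h.S_zero]
  rfl

/-- functions on `X` given by polynomials in the coordinates -/
def th (h : Mod T s c S r) (k : ℕ) : Pk (Fin (finrank ℂ E)) k →ₗ[ℂ] ol s where
  toFun P := ⟨fun x => P.1 ((finBasis ℂ E).equivFun (c x)) -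
      P.1 ((finBasis ℂ E).equivFun (c (s 0))), by
    refine ⟨?_, sub_self _⟩
    have hP := differentiable_of_mem P.2
    have h1 : Differentiable ℂ fun z : E => P.1 ((finBasis ℂ E).equivFun z) -
        P.1 ((finBasis ℂ E).equivFun (c (s 0))) := by
      refine Differentiable.sub_const ?_ _
      exact hP.comp
        ((finBasis ℂ E).equivFun.toLinearMap.toContinuousLinearMap.differentiable)
    have h2 : (fun z : E => P.1 ((finBasis ℂ E).equivFun (c (s z))) -
        P.1 ((finBasis ℂ E).equivFun (c (s 0)))) =ᶠ[𝓝 0]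
        fun z : E => P.1 ((finBasis ℂ E).equivFun z) -
        P.1 ((finBasis ℂ E).equivFun (c (s 0))) := by
      filter_upwards [ball_mem_nhds (0 : E) h.pos] with z hz
      rw [h.left z hz]
    filter_upwards [h2.eventuallyEq_nhds] with z hz
    exact (h1 z).congr_of_eventuallyEq hz⟩
  map_add' P R := by
    ext x
    simp only [Submodule.coe_add, Pi.add_apply]
    ring
  map_smul' a P := by
    ext x
    simp only [Submodule.coe_smul, Pi.smul_apply, smul_eq_mul, RingHom.id_apply]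
    ring

theorem exists_th (h : Mod T s c S r) (k : ℕ) (f : ol s) :
    ∃ P, f.1 - (h.th k P).1 ∈ hk s k := by
  set L : E ≃L[ℂ] (Fin (finrank ℂ E) → ℂ) := (finBasis ℂ E).equivFun.toContinuousLinearEquiv
    with hL
  obtain ⟨P, hP, hO⟩ := exists_taylor_coord (G := fun z => L z)
    (Eventually.of_forall fun z => L.differentiableAt) (by simp) (L := L) L.hasFDerivAt f.2.1 k
  have h0 : P 0 = 0 := by
    obtain ⟨C, hC⟩ := hO.bound
    have h1 := hC.self_of_nhds
    have h2 : f.1 (s 0) = 0 := f.2.2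
    simpa [h2] using h1
  refine ⟨⟨P, hP⟩, ?_⟩
  change ((f.1 - (h.th k ⟨P, hP⟩).1) ∘ s) =O[𝓝 0] fun z : E => ‖z‖ ^ (k + 1)
  refine hO.congr' ?_ EventuallyEq.rfl
  filter_upwards [ball_mem_nhds (0 : E) h.pos] with z hz
  have h3 : c (s 0) = 0 := h.left 0 (mem_ball_self h.pos)
  simp only [th, LinearMap.coe_mk, AddHom.coe_mk, Function.comp_apply, Pi.sub_apply, h.left z hz,
    h3, map_zero, h0, sub_zero]
  rfl

/-- **Generalized eigenfunctions with independent differentials.** -/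
theorem exists_eigen (h : Mod T s c S r) (hA : Function.Injective (fderiv ℂ S 0)) :
    ∃ (n : ℕ) (F : X → Fin n → ℂ) (ν : Fin n → ℂ) (k : ℕ),
      (∀ i, (fun x => F x i) ∈ ol s) ∧
      (∀ i, (fun x => F x i) ∈ maxGenEigenspace (ts T).toLinearMap (ν i)) ∧
      (∀ i, 1 < ‖ν i‖ * 2 ^ (k + 1)) ∧
      ∃ L : E ≃L[ℂ] (Fin n → ℂ), HasFDerivAt (fun z => F (s z)) (L : E →L[ℂ] Fin n → ℂ) 0 := by
  classical
  set A : E →ₗ[ℂ] E := (fderiv ℂ S 0 : E →L[ℂ] E).toLinearMap with hAdef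
  have hAinj : Function.Injective A := hA
  have hAsurj : Function.Surjective A := LinearMap.surjective_of_injective hAinj
  have hAt : Function.Injective (A.dualMap : End ℂ (Dual ℂ E)) :=
    LinearMap.dualMap_injective_of_surjective hAsurj
  obtain ⟨β, ν, hβ⟩ := exists_basis (A.dualMap : End ℂ (Dual ℂ E))
  have hν : ∀ i, ν i ≠ 0 := fun i => ne_zero_of_injective hAt (β.ne_zero i) (hβ i)
  -- choice of `k`
  obtain ⟨k, hkν, hk1⟩ : ∃ k : ℕ, (∀ i, 1 < ‖ν i‖ * 2 ^ (k + 1)) ∧ 1 ≤ k := by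
    have h1 : ∀ i, ∀ᶠ k : ℕ in atTop, 1 < ‖ν i‖ * 2 ^ (k + 1) := by
      intro i
      have h2 : Tendsto (fun k : ℕ => ‖ν i‖ * 2 ^ (k + 1)) atTop atTop :=
        ((tendsto_pow_atTop_atTop_of_one_lt (r := (2 : ℝ)) (by norm_num)).comp
          (tendsto_add_atTop_nat 1)).const_mul_atTop (norm_pos_iff.2 (hν i))
      exact h2.eventually_gt_atTop 1
    exact ((eventually_all.2 h1).and (eventually_ge_atTop 1)).exists
  -- the jets
  set K : Submodule ℂ (ol s) := (hk s k).comap (ol s).subtype with hK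
  have hKle : K ≤ K.comap h.tv := by
    intro f hf
    change (h.tv f).1 ∈ hk s k
    exact h.ts_mem_hk hf
  have hfin : FiniteDimensional ℂ (ol s ⧸ K) := by
    refine Module.Finite.of_surjective (K.mkQ ∘ₗ h.th k) ?_
    intro y
    obtain ⟨f, rfl⟩ := K.mkQ_surjective y
    obtain ⟨P, hP⟩ := h.exists_th k f
    refine ⟨P, ?_⟩
    rw [LinearMap.comp_apply, Submodule.mkQ_apply, Submodule.mkQ_apply, eq_comm,
      Submodule.Quotient.eq]
    exact hP
  have hKd : K ≤ LinearMap.ker (dl s) := by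
    intro f hf
    have hf' : f.1 ∈ hk s k := hf
    rw [LinearMap.mem_ker]
    ext v
    rw [dl_apply, fderiv_eq_zero_of_mem hk1 hf']
    rfl
  have hsurj : Function.Surjective (K.liftQ (dl s) hKd) := by
    intro φ
    have hmem : (fun x => φ (c x)) ∈ ol s := by
      refine ⟨?_, by simp [h.left 0 (mem_ball_self h.pos)]⟩
      have h2 : ((fun x => φ (c x)) ∘ s) =ᶠ[𝓝 0] fun z : E => φ z := by
        filter_upwards [ball_mem_nhds (0 : E) h.pos] with z hz
        simp [h.left z hz]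
      filter_upwards [h2.eventuallyEq_nhds] with z hz
      exact (φ.toContinuousLinearMap.differentiableAt).congr_of_eventuallyEq hz
    refine ⟨K.mkQ ⟨_, hmem⟩, ?_⟩
    rw [Submodule.mkQ_apply, Submodule.liftQ_apply]
    ext v
    rw [dl_apply]
    have h2 : ((fun x => φ (c x)) ∘ s) =ᶠ[𝓝 0] fun z : E => φ.toContinuousLinearMap z := by
      filter_upwards [ball_mem_nhds (0 : E) h.pos] with z hz
      simp [h.left z hz]
    rw [h2.fderiv_eq, ContinuousLinearMap.fderiv]
    rfl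
  have hequi : ∀ q, K.liftQ (dl s) hKd ((K.mapQ K h.tv hKle) q) =
      A.dualMap (K.liftQ (dl s) hKd q) := by
    intro q
    obtain ⟨f, rfl⟩ := K.mkQ_surjective q
    rw [Submodule.mkQ_apply, Submodule.mapQ_apply, Submodule.liftQ_apply, Submodule.liftQ_apply]
    exact h.dl_tv f
  have key : ∀ i, ∃ F : ol s, F.1 ∈ maxGenEigenspace (ts T).toLinearMap (ν i) ∧
      dl s F = β i := by
    intro i
    obtain ⟨q, hq, hqβ⟩ := exists_lift (f := K.mapQ K h.tv hKle) (g := A.dualMap) hsurj hequi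
      (hβ i)
    obtain ⟨g, rfl⟩ := K.mkQ_surjective q
    rw [mem_maxGenEigenspace] at hq
    obtain ⟨N, hN⟩ := hq
    have h1 : K.mkQ (((h.tv - ν i • (1 : End ℂ (ol s))) ^ N) g) = 0 := by
      rw [map_pow_sub (g := K.mapQ K h.tv hKle) (π := K.mkQ) (fun v => rfl)]
      exact hN
    rw [Submodule.mkQ_apply, Submodule.Quotient.mk_eq_zero] at h1
    have h2 : (((h.tv - ν i • (1 : End ℂ (ol s))) ^ N) g).1 =
        (((ts T).toLinearMap - ν i • (1 : End ℂ (X → ℂ))) ^ N) g.1 :=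
      map_pow_sub (f := h.tv) (g := (ts T).toLinearMap) (π := (ol s).subtype) (fun v => rfl)
        (ν i) N g
    obtain ⟨u, hu, hu', huv⟩ := h.exists_pow_eq (hkν i) N
      (f := (((h.tv - ν i • (1 : End ℂ (ol s))) ^ N) g).1) h1 (Subtype.mem _)
    refine ⟨g - ⟨u, hu'⟩, ?_, ?_⟩
    · rw [mem_maxGenEigenspace]
      refine ⟨N, ?_⟩
      change (((ts T).toLinearMap - ν i • (1 : End ℂ (X → ℂ))) ^ N) (g.1 - u) = 0
      rw [map_sub, huv, h2, sub_self]
    · rw [map_sub]
      have h3 : dl s ⟨u, hu'⟩ = 0 := by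
        ext v
        rw [dl_apply, fderiv_eq_zero_of_mem hk1 hu]
        rfl
      rw [h3, sub_zero]
      rw [Submodule.mkQ_apply, Submodule.liftQ_apply] at hqβ
      exact hqβ
  choose F hFe hFd using key
  refine ⟨_, fun x i => (F i).1 x, ν, k, fun i => (F i).2, hFe, hkν, ?_⟩
  let L0 : E →ₗ[ℂ] (Fin (finrank ℂ (Dual ℂ E)) → ℂ) := LinearMap.pi fun i => β i
  have hL0 : Function.Injective L0 := by
    rw [injective_iff_map_eq_zero]
    intro v hv
    rw [← Module.forall_dual_apply_eq_zero_iff ℂ]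
    intro φ
    rw [← β.sum_repr φ, LinearMap.sum_apply]
    refine Finset.sum_eq_zero fun i _ => ?_
    have h4 : β i v = 0 := congrFun hv i
    rw [LinearMap.smul_apply, h4, smul_zero]
  let L1 := L0.linearEquivOfInjective hL0 (by
    rw [Module.finrank_fin_fun, Subspace.dual_finrank_eq])
  refine ⟨L1.toContinuousLinearEquiv, ?_⟩
  rw [hasFDerivAt_pi']
  intro i
  have h5 : HasFDerivAt ((F i).1 ∘ s) (fderiv ℂ ((F i).1 ∘ s) 0) 0 := (diffAt (F i).2).hasFDerivAt
  have h6 : fderiv ℂ ((F i).1 ∘ s) 0 = (ContinuousLinearMap.proj i).comp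
      (L1.toContinuousLinearEquiv : E →L[ℂ] (Fin (finrank ℂ (Dual ℂ E)) → ℂ)) := by
    ext v
    have h7 := congrArg (fun φ : Dual ℂ E => φ v) (hFd i)
    exact h7
  rw [← h6]
  exact h5

theorem prod_mem {ι κ : Type*} (t : Finset κ) {F : X → ι → ℂ} {ν : ι → ℂ}
    (hF : ∀ i, (fun x => F x i) ∈ maxGenEigenspace (ts T).toLinearMap (ν i)) (w : κ → ι) :
    (∏ l ∈ t, fun x => F x (w l)) ∈ maxGenEigenspace (ts T).toLinearMap (∏ l ∈ t, ν (w l)) := by
  classical
  induction t using Finset.induction_on with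
  | empty =>
    rw [mem_maxGenEigenspace]
    refine ⟨1, ?_⟩
    simp
  | insert a t ha ih =>
    rw [Finset.prod_insert ha, Finset.prod_insert ha]
    exact mul_mem_maxGen (ts T) (hF _) ih

/-- **All generalized eigenfunctions are polynomials.** -/
theorem exists_poly (h : Mod T s c S r) {n : ℕ} {F : X → Fin n → ℂ} {ν : Fin n → ℂ} {k : ℕ}
    (hFo : ∀ i, (fun x => F x i) ∈ ol s)
    (hFe : ∀ i, (fun x => F x i) ∈ maxGenEigenspace (ts T).toLinearMap (ν i))
    {L : E ≃L[ℂ] (Fin n → ℂ)} (hL : HasFDerivAt (fun z => F (s z)) (L : E →L[ℂ] Fin n → ℂ) 0)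
    {μ : ℂ} (hμ : 1 < ‖μ‖ * 2 ^ (k + 1)) {f : X → ℂ} (hf : f ∈ ol s)
    (hfe : f ∈ maxGenEigenspace (ts T).toLinearMap μ) :
    ∃ P ∈ Pk (Fin n) k, ∀ x, f x = P (F x) := by
  classical
  have hG : ∀ᶠ z in 𝓝 (0 : E), DifferentiableAt ℂ (fun z => F (s z)) z := by
    have h1 : ∀ i, ∀ᶠ z in 𝓝 (0 : E), DifferentiableAt ℂ (fun z => F (s z) i) z :=
      fun i => (hFo i).1
    filter_upwards [eventually_all.2 h1] with z hz
    exact differentiableAt_pi.2 hz
  have hG0 : F (s 0) = 0 := by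
    funext i
    exact (hFo i).2
  obtain ⟨P0, hP0, hO⟩ := exists_taylor_coord hG hG0 hL hf.1 k
  rw [Pk, Submodule.mem_span_range_iff_exists_fun] at hP0
  obtain ⟨a, ha⟩ := hP0
  set Y : Wd (Fin n) k → X → ℂ := fun w x => a w * wd w.2 (F x) with hY
  have hYe : ∀ w : Wd (Fin n) k,
      Y w ∈ maxGenEigenspace (ts T).toLinearMap (∏ l, ν (w.2 l)) := by
    intro w
    have h1 : Y w = a w • ∏ l, fun x => F x (w.2 l) := by
      funext x
      simp [hY, wd, Finset.prod_apply]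
    rw [h1]
    exact Submodule.smul_mem _ _ (prod_mem _ hFe _)
  have hKle : hk s k ≤ (hk s k).comap (ts T).toLinearMap := fun f hf => h.ts_mem_hk hf
  set φ := (hk s k).mapQ (hk s k) (ts T).toLinearMap hKle with hφ
  have hπ : ∀ v, (hk s k).mkQ ((ts T).toLinearMap v) = φ ((hk s k).mkQ v) := fun v => rfl
  have h2 : (hk s k).mkQ f = ∑ w, (hk s k).mkQ (Y w) := by
    rw [← map_sum, Submodule.mkQ_apply, Submodule.mkQ_apply, Submodule.Quotient.eq]
    change ((f - ∑ w, Y w) ∘ s) =O[𝓝 0] fun z : E => ‖z‖ ^ (k + 1)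
    refine hO.congr' (Eventually.of_forall fun z => ?_) EventuallyEq.rfl
    rw [← ha]
    simp [hY, Finset.sum_apply]
  have h3 := eq_sum_filter (φ := φ) Finset.univ (ν := fun w : Wd (Fin n) k => ∏ l, ν (w.2 l))
    (y := fun w => (hk s k).mkQ (Y w)) (fun w _ => map_mem_maxGen hπ (hYe w))
    (map_mem_maxGen hπ hfe) h2
  rw [← map_sum, Submodule.mkQ_apply, Submodule.mkQ_apply, Submodule.Quotient.eq] at h3
  have h4 := h.eq_zero_of_mem hμ h3 (by
    refine Submodule.sub_mem _ hfe (Submodule.sum_mem _ fun w hw => ?_)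
    rw [Finset.mem_filter] at hw
    rw [← hw.2]
    exact hYe w)
  refine ⟨∑ w with ∏ l, ν (w.2 l) = μ, a w • wd w.2, ?_, fun x => ?_⟩
  · exact Submodule.sum_mem _ fun w _ => Submodule.smul_mem _ _ (Submodule.subset_span ⟨w, rfl⟩)
  · have h5 := congrFun (sub_eq_zero.1 h4) x
    rw [h5]
    simp [hY, Finset.sum_apply]

end Mod

end Vale.Agent.P253.R2.H156.RR
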