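import Vale.Agent.P253.R2.H156.RR4

/-!
P253, Rosay-Rudin without normal forms, part 5: the local model in a chart, holomorphic extension of
generalized eigenfunctions, polynomial automorphisms.
-/

open scoped Manifold ContDiff Topology
open Module Module.End Set Metric Filter Asymptotics

set_option linter.unusedSectionVars false

noncomputable section

namespace Vale.Agent.P253.R2.H156.RR

/-- pointwise convergence of polynomials of bounded degree on an open set implies pointwise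
convergence everywhere -/
theorem tendsto_of_mem_Pk {n k : ℕ} {N : ℕ → (Fin n → ℂ) → ℂ} (hN : ∀ m, N m ∈ Pk (Fin n) k)
    {U : Set (Fin n → ℂ)} (hU : U ∈ 𝓝 (0 : Fin n → ℂ))
    (h : ∀ y ∈ U, Tendsto (fun m => N m y) atTop (𝓝 0)) (w : Fin n → ℂ) :
    Tendsto (fun m => N m w) atTop (𝓝 0) := by
  let ρ : Pk (Fin n) k →ₗ[ℂ] (U → ℂ) :=
    { toFun := fun f u => f.1 u
      map_add' := fun f g => rfl
      map_smul' := fun a f => rfl }
  have hker : LinearMap.ker ρ = ⊥ := by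
    rw [LinearMap.ker_eq_bot']
    intro f hf
    have h1 : AnalyticOnNhd ℂ f.1 univ :=
      Vale.Agent.P281.MF.analyticOnNhd_of_differentiableOn isOpen_univ
        (differentiable_of_mem f.2).differentiableOn
    have h2 : f.1 =ᶠ[𝓝 0] fun _ => (0 : ℂ) := by
      filter_upwards [hU] with y hy
      exact congrFun hf ⟨y, hy⟩
    have h3 := h1.eq_of_eventuallyEq (g := fun _ => (0 : ℂ)) analyticOnNhd_const h2
    ext y
    exact congrFun h3 y
  have hemb := LinearMap.isClosedEmbedding_of_injective hker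
  have h4 : Tendsto (fun m => (⟨N m, hN m⟩ : Pk (Fin n) k)) atTop (𝓝 0) := by
    rw [hemb.isInducing.tendsto_nhds_iff, tendsto_pi_nhds]
    intro u
    rw [map_zero]
    exact h u.1 u.2
  have h5 : Continuous fun f : Pk (Fin n) k => f.1 w :=
    (continuous_apply w).comp continuous_subtype_val
  have h6 := (h5.tendsto 0).comp h4
  exact h6

section chart

variable (E : Type*) [NormedAddCommGroup E] [NormedSpace ℂ E] {M : Type*} [TopologicalSpace M]
  [ChartedSpace E M]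

/-- the centred chart at `p` -/
def cc (p x : M) : E := extChartAt 𝓘(ℂ, E) p x - extChartAt 𝓘(ℂ, E) p p

/-- the inverse of the centred chart at `p` -/
def ss (p : M) (z : E) : M := (extChartAt 𝓘(ℂ, E) p).symm (z + extChartAt 𝓘(ℂ, E) p p)

variable {E}

theorem cc_self (p : M) : cc E p p = 0 := sub_self _

theorem ss_zero (p : M) : ss E p 0 = p := by
  simp only [ss, zero_add, extChartAt_to_inv]

theorem eventually_target (p : M) : ∀ᶠ z in 𝓝 (0 : E),
    z + extChartAt 𝓘(ℂ, E) p p ∈ (extChartAt 𝓘(ℂ, E) p).target := by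
  have h1 : Tendsto (fun z : E => z + extChartAt 𝓘(ℂ, E) p p) (𝓝 0)
      (𝓝 (extChartAt 𝓘(ℂ, E) p p)) := by
    have : Continuous fun z : E => z + extChartAt 𝓘(ℂ, E) p p := by fun_prop
    simpa using this.tendsto 0
  exact h1.eventually (extChartAt_target_mem_nhds p)

theorem cc_ss {p : M} {z : E}
    (h : z + extChartAt 𝓘(ℂ, E) p p ∈ (extChartAt 𝓘(ℂ, E) p).target) :
    cc E p (ss E p z) = z := by
  rw [cc, ss, (extChartAt 𝓘(ℂ, E) p).right_inv h, add_sub_cancel_right]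

theorem ss_cc {p x : M} (h : x ∈ (extChartAt 𝓘(ℂ, E) p).source) : ss E p (cc E p x) = x := by
  rw [cc, ss, sub_add_cancel, (extChartAt 𝓘(ℂ, E) p).left_inv h]

variable [IsManifold 𝓘(ℂ, E) 1 M]

theorem contMDiffAt_cc {p x : M} (h : x ∈ (chartAt E p).source) :
    ContMDiffAt 𝓘(ℂ, E) 𝓘(ℂ, E) 1 (cc E p) x :=
  (contMDiffAt_extChartAt' h).sub contMDiffAt_const

theorem contMDiffAt_ss {p : M} {z : E}
    (h : z + extChartAt 𝓘(ℂ, E) p p ∈ (extChartAt 𝓘(ℂ, E) p).target) :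
    ContMDiffAt 𝓘(ℂ, E) 𝓘(ℂ, E) 1 (ss E p) z := by
  have h1 : ContMDiffAt 𝓘(ℂ, E) 𝓘(ℂ, E) 1 (extChartAt 𝓘(ℂ, E) p).symm
      (z + extChartAt 𝓘(ℂ, E) p p) :=
    (contMDiffOn_extChartAt_symm p).contMDiffAt (extChartAt_target_mem_nhds' h)
  have h2 : ContMDiffAt 𝓘(ℂ, E) 𝓘(ℂ, E) 1 (fun z : E => z + extChartAt 𝓘(ℂ, E) p p) z :=
    contMDiffAt_id.add contMDiffAt_const
  exact h1.comp z h2

theorem tendsto_ss (p : M) : Tendsto (ss E p) (𝓝 0) (𝓝 p) := by
  have h1 := (contMDiffAt_ss (E := E) (p := p) (z := 0)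
    (eventually_target p).self_of_nhds).continuousAt
  rwa [ContinuousAt, ss_zero] at h1

theorem tendsto_cc (p : M) : Tendsto (cc E p) (𝓝 p) (𝓝 0) := by
  have h1 := (contMDiffAt_cc (E := E) (mem_chart_source E p)).continuousAt
  rwa [ContinuousAt, cc_self] at h1

theorem eventually_source (p : M) : ∀ᶠ x in 𝓝 p, x ∈ (chartAt E p).source :=
  (chartAt E p).open_source.mem_nhds (mem_chart_source E p)

theorem eventually_ss_cc (p : M) : ∀ᶠ x in 𝓝 p, ss E p (cc E p x) = x := by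
  filter_upwards [eventually_source (E := E) p] with x hx
  exact ss_cc (by rwa [extChartAt_source])

/-- functions holomorphic near `p` -/
theorem mem_ol {p : M} {f : M → ℂ}
    (hf : ∀ᶠ x in 𝓝 p, ContMDiffAt 𝓘(ℂ, E) 𝓘(ℂ, ℂ) 1 f x) (h0 : f p = 0) : f ∈ ol (ss E p) := by
  refine ⟨?_, by rw [ss_zero, h0]⟩
  filter_upwards [eventually_target p, (tendsto_ss p).eventually hf] with z h1 h2
  have h3 : ContMDiffAt 𝓘(ℂ, E) 𝓘(ℂ, ℂ) 1 (f ∘ ss E p) z := h2.comp z (contMDiffAt_ss h1)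
  exact (contMDiffAt_iff_contDiffAt.1 h3).differentiableAt (by norm_num)

theorem of_mem_ol [FiniteDimensional ℂ E] {p : M} {f : M → ℂ} (hf : f ∈ ol (ss E p)) :
    ∀ᶠ x in 𝓝 p, ContMDiffAt 𝓘(ℂ, E) 𝓘(ℂ, ℂ) 1 f x := by
  have h1 : AnalyticAt ℂ (f ∘ ss E p) 0 := analyticAt_of_eventually hf.1
  filter_upwards [(tendsto_cc p).eventually h1.eventually_analyticAt,
    eventually_source (E := E) p, (eventually_ss_cc (E := E) p).eventually_nhds] with x h2 h3 h4
  have h5 : ContMDiffAt 𝓘(ℂ, E) 𝓘(ℂ, ℂ) 1 ((f ∘ ss E p) ∘ cc E p) x :=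
    (contMDiffAt_iff_contDiffAt.2 h2.contDiffAt).comp x (contMDiffAt_cc h3)
  refine h5.congr_of_eventuallyEq ?_
  filter_upwards [h4] with y hy
  simp [hy]

/-- **Extension of generalized eigenfunctions.** -/
theorem contMDiff_of_eigen {R : M → M} (hR : ContMDiff 𝓘(ℂ, E) 𝓘(ℂ, E) 1 R) {p : M}
    (hp : R p = p) (hb : ∀ x, Tendsto (fun m => R^[m] x) atTop (𝓝 p)) {μ : ℂ} (hμ : μ ≠ 0)
    {f : M → ℂ} (hf : ∀ᶠ x in 𝓝 p, ContMDiffAt 𝓘(ℂ, E) 𝓘(ℂ, ℂ) 1 f x)
    (he : f ∈ maxGenEigenspace (ts R).toLinearMap μ) : ContMDiff 𝓘(ℂ, E) 𝓘(ℂ, ℂ) 1 f := by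
  rw [mem_maxGenEigenspace] at he
  obtain ⟨N, hN⟩ := he
  induction N generalizing f with
  | zero =>
    have : f = 0 := by simpa using hN
    rw [this]
    exact contMDiff_const
  | succ N ih =>
    rw [pow_succ] at hN
    set g : M → ℂ := ((ts R).toLinearMap - μ • (1 : End ℂ (M → ℂ))) f with hg
    have hRt : Tendsto R (𝓝 p) (𝓝 p) := by
      have := hR.continuous.tendsto p
      rwa [hp] at this
    have hgx : ∀ x, g x = f (R x) - μ * f x := fun x => rfl
    have hg1 : ∀ᶠ x in 𝓝 p, ContMDiffAt 𝓘(ℂ, E) 𝓘(ℂ, ℂ) 1 g x := by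
      filter_upwards [hf, hRt.eventually hf] with x h1 h2
      have h3 : ContMDiffAt 𝓘(ℂ, E) 𝓘(ℂ, ℂ) 1 (fun x => f (R x) - μ * f x) x :=
        (h2.comp x hR.contMDiffAt).sub (contMDiffAt_const.mul h1)
      exact h3
    have hgs := ih hg1 hN
    have hstep : ∀ y, ContMDiffAt 𝓘(ℂ, E) 𝓘(ℂ, ℂ) 1 f (R y) →
        ContMDiffAt 𝓘(ℂ, E) 𝓘(ℂ, ℂ) 1 f y := by
      intro y hy
      have h3 : ContMDiffAt 𝓘(ℂ, E) 𝓘(ℂ, ℂ) 1 (fun x => μ⁻¹ * (f (R x) - g x)) y :=
        contMDiffAt_const.mul ((hy.comp y hR.contMDiffAt).sub hgs.contMDiffAt)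
      have h4 : (fun x => μ⁻¹ * (f (R x) - g x)) = f := by
        funext x
        rw [hgx]
        field_simp
        ring
      rwa [h4] at h3
    intro x
    obtain ⟨m, hm⟩ := ((hb x).eventually hf).exists
    clear hf hN ih hg1
    induction m generalizing x with
    | zero => exact hm
    | succ m ih' =>
      refine hstep x (ih' (R x) ?_)
      rwa [Function.iterate_succ_apply] at hm

/-- the map `R` in the chart -/
def SS (E : Type*) [NormedAddCommGroup E] [NormedSpace ℂ E] {M : Type*} [TopologicalSpace M]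
    [ChartedSpace E M] (R : M → M) (p : M) (z : E) : E := cc E p (R (ss E p z))

theorem eventually_SS {R : M → M} (hR : ContMDiff 𝓘(ℂ, E) 𝓘(ℂ, E) 1 R) {p : M} (hp : R p = p) :
    ∀ᶠ z in 𝓝 (0 : E), ContDiffAt ℂ 1 (SS E R p) z ∧ R (ss E p z) = ss E p (SS E R p z) ∧
      cc E p (ss E p z) = z := by
  have hRt : Tendsto (fun z => R (ss E p z)) (𝓝 (0 : E)) (𝓝 p) := by
    have := (hR.continuous.tendsto p).comp (tendsto_ss (E := E) p)
    rwa [hp] at this
  filter_upwards [eventually_target p, hRt.eventually (eventually_source (E := E) p)] with z h1 h2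
  refine ⟨?_, ?_, cc_ss h1⟩
  · have h3 : ContMDiffAt 𝓘(ℂ, E) 𝓘(ℂ, E) 1 (SS E R p) z :=
      (contMDiffAt_cc h2).comp z (hR.contMDiffAt.comp z (contMDiffAt_ss h1))
    exact contMDiffAt_iff_contDiffAt.1 h3
  · have h4 : ss E p (cc E p (R (ss E p z))) = R (ss E p z) :=
      ss_cc (by rwa [extChartAt_source])
    exact h4.symm

theorem SS_zero {R : M → M} {p : M} (hp : R p = p) : SS E R p 0 = 0 := by
  rw [SS, ss_zero, hp, cc_self]

theorem injective_fderiv_SS {R R' : M → M} (hR : ContMDiff 𝓘(ℂ, E) 𝓘(ℂ, E) 1 R)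
    (hR' : ContMDiff 𝓘(ℂ, E) 𝓘(ℂ, E) 1 R') (h1 : ∀ x, R' (R x) = x) {p : M} (hp : R p = p) :
    Function.Injective (fderiv ℂ (SS E R p) 0) := by
  have hp' : R' p = p := by rw [← hp, h1, hp]
  have h2 : (SS E R' p) ∘ (SS E R p) =ᶠ[𝓝 0] id := by
    filter_upwards [eventually_SS (E := E) hR hp] with z hz
    simp only [Function.comp_apply, id_eq]
    rw [SS, ← hz.2.1, h1, hz.2.2]
  have h3 : DifferentiableAt ℂ (SS E R p) 0 :=
    (eventually_SS (E := E) hR hp).self_of_nhds.1.differentiableAt (by norm_num)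
  have h4 : DifferentiableAt ℂ (SS E R' p) (SS E R p 0) := by
    rw [SS_zero hp]
    exact (eventually_SS (E := E) hR' hp').self_of_nhds.1.differentiableAt (by norm_num)
  have h5 := h2.fderiv_eq (𝕜 := ℂ)
  rw [fderiv_comp (0 : E) h4 h3, fderiv_id] at h5
  intro v w hvw
  have h6 := congrArg (fun L : E →L[ℂ] E => L v) h5
  have h7 := congrArg (fun L : E →L[ℂ] E => L w) h5
  simp only [ContinuousLinearMap.comp_apply, ContinuousLinearMap.id_apply] at h6 h7
  rw [← h6, ← h7, hvw]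

theorem exists_mod_local {R : M → M} (hR : ContMDiff 𝓘(ℂ, E) 𝓘(ℂ, E) 1 R) {p : M} (hp : R p = p)
    (hA : ‖fderiv ℂ (SS E R p) 0‖ ≤ 1 / 4) :
    ∃ r > 0, DifferentiableOn ℂ (SS E R p) (ball 0 r) ∧
      (∀ z ∈ ball (0 : E) r, R (ss E p z) = ss E p (SS E R p z)) ∧
      (∀ z ∈ ball (0 : E) r, ‖SS E R p z‖ ≤ ‖z‖ / 2) ∧
      ∀ z ∈ ball (0 : E) r, cc E p (ss E p z) = z := by
  have h3 : DifferentiableAt ℂ (SS E R p) 0 :=
    (eventually_SS (E := E) hR hp).self_of_nhds.1.differentiableAt (by norm_num)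
  have h4 := (hasFDerivAt_iff_isLittleO_nhds_zero.1 h3.hasFDerivAt).bound
    (show (0 : ℝ) < 1 / 4 by norm_num)
  obtain ⟨r, hr, h⟩ := Metric.eventually_nhds_iff_ball.1 ((eventually_SS (E := E) hR hp).and h4)
  refine ⟨r, hr, ?_, fun z hz => (h z hz).1.2.1, ?_, fun z hz => (h z hz).1.2.2⟩
  · intro z hz
    exact ((h z hz).1.1.differentiableAt (by norm_num)).differentiableWithinAt
  · intro z hz
    have h5 := (h z hz).2
    rw [zero_add, SS_zero hp, sub_zero] at h5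
    have h6 := (fderiv ℂ (SS E R p) 0).le_opNorm z
    calc ‖SS E R p z‖ = ‖(SS E R p z - fderiv ℂ (SS E R p) 0 z) + fderiv ℂ (SS E R p) 0 z‖ := by
          rw [sub_add_cancel]
      _ ≤ ‖SS E R p z - fderiv ℂ (SS E R p) 0 z‖ + ‖fderiv ℂ (SS E R p) 0 z‖ := norm_add_le _ _
      _ ≤ 1 / 4 * ‖z‖ + 1 / 4 * ‖z‖ := by
          gcongr
          exact h6.trans (by gcongr)
      _ = ‖z‖ / 2 := by ring

theorem exists_mod {R : M → M} (hR : ContMDiff 𝓘(ℂ, E) 𝓘(ℂ, E) 1 R) {p : M} (hp : R p = p)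
    (hA : ‖fderiv ℂ (SS E R p) 0‖ ≤ 1 / 4) (hb : ∀ x, Tendsto (fun m => R^[m] x) atTop (𝓝 p)) :
    ∃ r, Mod R (ss E p) (cc E p) (SS E R p) r := by
  obtain ⟨r, hr, h1, h2, h3, h4⟩ := exists_mod_local hR hp hA
  refine ⟨r, hr, h1, h2, h3, h4, ?_⟩
  intro x
  have h7 := ((tendsto_cc (E := E) p).comp (hb x)).eventually (ball_mem_nhds (0 : E) hr)
  have h8 := (hb x).eventually (eventually_ss_cc (E := E) p)
  obtain ⟨m, hm1, hm2⟩ := (h7.and h8).exists
  exact ⟨m, cc E p (R^[m] x), hm1, hm2.symm⟩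

/-- points near a strongly attracting fixed point converge to it -/
theorem eventually_tendsto {R : M → M} (hR : ContMDiff 𝓘(ℂ, E) 𝓘(ℂ, E) 1 R) {p : M} (hp : R p = p)
    (hA : ‖fderiv ℂ (SS E R p) 0‖ ≤ 1 / 4) :
    ∀ᶠ x in 𝓝 p, Tendsto (fun m => R^[m] x) atTop (𝓝 p) := by
  obtain ⟨r, hr, h1, h2, h3, h4⟩ := exists_mod_local hR hp hA
  have hit : ∀ z ∈ ball (0 : E) r, ∀ m : ℕ, (SS E R p)^[m] z ∈ ball (0 : E) r ∧
      ‖(SS E R p)^[m] z‖ ≤ (1 / 2) ^ m * ‖z‖ ∧ R^[m] (ss E p z) = ss E p ((SS E R p)^[m] z) := by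
    intro z hz m
    induction m with
    | zero => exact ⟨hz, by simp, rfl⟩
    | succ m ih =>
      obtain ⟨i1, i2, i3⟩ := ih
      have h5 := h3 _ i1
      refine ⟨?_, ?_, ?_⟩
      · rw [Function.iterate_succ_apply', mem_ball_zero_iff]
        rw [mem_ball_zero_iff] at i1
        linarith [norm_nonneg ((SS E R p)^[m] z)]
      · rw [Function.iterate_succ_apply', pow_succ]
        linarith
      · rw [Function.iterate_succ_apply', i3, h2 _ i1, Function.iterate_succ_apply']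
  filter_upwards [(tendsto_cc (E := E) p).eventually (ball_mem_nhds (0 : E) hr),
    eventually_ss_cc (E := E) p] with x hx hx'
  have h6 : Tendsto (fun m => (SS E R p)^[m] (cc E p x)) atTop (𝓝 0) := by
    refine squeeze_zero_norm (fun m => (hit _ hx m).2.1) ?_
    have := (tendsto_pow_atTop_nhds_zero_of_lt_one (r := (1 / 2 : ℝ)) (by norm_num)
      (by norm_num)).mul_const ‖cc E p x‖
    simpa using this
  have h7 := (tendsto_ss (E := E) p).comp h6
  refine h7.congr fun m => ?_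
  simp only [Function.comp_apply]
  rw [← (hit _ hx m).2.2, hx']

end chart

end Vale.Agent.P253.R2.H156.RR
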