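import Vale.Agent.P253.R2.H156.RR5
import Vale.Agent.P253.R2.H156.Cor

/-!
P253, Rosay-Rudin without normal forms, part 6: the basin of an attracting fixed point.
-/

open scoped Manifold ContDiff Topology
open Module Module.End Set Metric Filter Asymptotics

set_option linter.unusedSectionVars false

noncomputable section

namespace Vale.Agent.P253.R2.H156.RR

variable {E : Type*} [NormedAddCommGroup E] [NormedSpace ℂ E] [FiniteDimensional ℂ E]
  {M : Type*} [TopologicalSpace M] [ChartedSpace E M] [IsManifold 𝓘(ℂ, E) 1 M]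

theorem iterate_fix {Q : M → M} {p : M} (hp : Q p = p) (m : ℕ) : Q^[m] p = p := by
  induction m with
  | zero => rfl
  | succ m ih => rw [Function.iterate_succ_apply, hp, ih]

theorem contMDiff_iterate {Q : M → M} (hQ : ContMDiff 𝓘(ℂ, E) 𝓘(ℂ, E) 1 Q) (m : ℕ) :
    ContMDiff 𝓘(ℂ, E) 𝓘(ℂ, E) 1 (Q^[m]) := by
  induction m with
  | zero => exact contMDiff_id
  | succ m ih =>
    rw [Function.iterate_succ]
    exact ih.comp hQ

/-- the basin of a strongly attracting fixed point -/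
theorem main_aux {R R' : M → M} (hR : ContMDiff 𝓘(ℂ, E) 𝓘(ℂ, E) 1 R)
    (hR' : ContMDiff 𝓘(ℂ, E) 𝓘(ℂ, E) 1 R') (h1 : ∀ x, R' (R x) = x) (h2 : ∀ x, R (R' x) = x)
    {p : M} (hp : R p = p) (hA : ‖fderiv ℂ (SS E R p) 0‖ ≤ 1 / 4)
    (hb : ∀ x, Tendsto (fun m => R^[m] x) atTop (𝓝 p)) :
    ∃ Φ : M ≃ₘ^1⟮𝓘(ℂ, E), 𝓘(ℂ, E)⟯ E, Φ p = 0 := by
  have hp' : R' p = p := by rw [← hp, h1, hp]
  obtain ⟨r, hm⟩ := exists_mod hR hp hA hb
  obtain ⟨n, F, ν, k, hFo, hFe, hk, L, hL⟩ := hm.exists_eigen (injective_fderiv_SS hR hR' h1 hp)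
  have hν : ∀ i, ν i ≠ 0 := by
    intro i h0
    have := hk i
    rw [h0] at this
    norm_num at this
  have hFi : ∀ i, ContMDiff 𝓘(ℂ, E) 𝓘(ℂ, ℂ) 1 fun x => F x i := fun i =>
    contMDiff_of_eigen hR hp hb (hν i) (of_mem_ol (hFo i)) (hFe i)
  have hF : ContMDiff 𝓘(ℂ, E) 𝓘(ℂ, Fin n → ℂ) 1 F := contMDiff_pi_space.2 hFi
  have hF0 : F p = 0 := by
    funext i
    have := (hFo i).2
    rwa [ss_zero] at this
  -- polynomial maps
  have hpoly : ∀ Q : M → M, ContMDiff 𝓘(ℂ, E) 𝓘(ℂ, E) 1 Q → Q p = p →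
      (∀ x, Q (R x) = R (Q x)) → ∃ N : (Fin n → ℂ) → Fin n → ℂ,
        (∀ i, (fun y => N y i) ∈ Pk (Fin n) k) ∧ ∀ x, F (Q x) = N (F x) := by
    intro Q hQ hQp hQR
    have hex : ∀ i, ∃ P ∈ Pk (Fin n) k, ∀ x, F (Q x) i = P (F x) := by
      intro i
      refine hm.exists_poly hFo hFe hL (hk i) (f := fun x => F (Q x) i) ?_ ?_
      · refine mem_ol (Eventually.of_forall fun x => ?_) (by rw [hQp, hF0]; rfl)
        exact (hFi i).contMDiffAt.comp x hQ.contMDiffAt
      · exact map_mem_maxGen (f := (ts R).toLinearMap) (g := (ts R).toLinearMap)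
          (π := (ts Q).toLinearMap) (fun v => by
            funext x
            change v (R (Q x)) = v (Q (R x))
            rw [hQR]) (hFe i)
    choose P hP hPe using hex
    exact ⟨fun y i => P i y, hP, fun x => funext fun i => hPe i x⟩
  have hcomm' : ∀ x, R' (R x) = R (R' x) := fun x => by rw [h1, h2]
  have hN : ∀ m : ℕ, ∃ N : (Fin n → ℂ) → Fin n → ℂ,
      (∀ i, (fun y => N y i) ∈ Pk (Fin n) k) ∧ ∀ x, F (R^[m] x) = N (F x) := fun m =>
    hpoly _ (contMDiff_iterate hR m) (iterate_fix hp m) fun x =>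
      (Function.Commute.iterate_left (fun x => rfl) m) x
  have hN' : ∀ m : ℕ, ∃ N : (Fin n → ℂ) → Fin n → ℂ,
      (∀ i, (fun y => N y i) ∈ Pk (Fin n) k) ∧ ∀ x, F (R'^[m] x) = N (F x) := fun m =>
    hpoly _ (contMDiff_iterate hR' m) (iterate_fix hp' m) fun x =>
      (Function.Commute.iterate_left (fun x => hcomm' x) m) x
  choose N hNP hNF using hN
  choose N' hNP' hNF' using hN'
  have hinv : ∀ m x, R'^[m] (R^[m] x) = x := fun m =>
    (show Function.LeftInverse R' R from h1).iterate m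
  have hRinj : ∀ m, Function.Injective R^[m] := fun m =>
    ((show Function.LeftInverse R' R from h1).iterate m).injective
  -- the local inverse of `F` at `p`
  have hGd : ∀ᶠ z in 𝓝 (0 : E), DifferentiableAt ℂ (fun z => F (ss E p z)) z := by
    have h3 : ∀ i, ∀ᶠ z in 𝓝 (0 : E), DifferentiableAt ℂ (fun z => F (ss E p z) i) z :=
      fun i => (hFo i).1
    filter_upwards [eventually_all.2 h3] with z hz
    exact differentiableAt_pi.2 hz
  have hGa : AnalyticAt ℂ (fun z => F (ss E p z)) 0 := analyticAt_of_eventually hGd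
  have hG0 : F (ss E p 0) = 0 := by rw [ss_zero, hF0]
  have hs : HasStrictFDerivAt (fun z => F (ss E p z)) (L : E →L[ℂ] Fin n → ℂ) 0 := by
    have := hGa.hasStrictFDerivAt
    rwa [hL.fderiv] at this
  set τ : (Fin n → ℂ) → E := hs.localInverse (fun z => F (ss E p z)) L 0 with hτ
  have hτ1 : ∀ᶠ z in 𝓝 (0 : E), τ (F (ss E p z)) = z := hs.eventually_left_inverse
  have hτ2 : ∀ᶠ w in 𝓝 (0 : Fin n → ℂ), F (ss E p (τ w)) = w := by
    have := hs.eventually_right_inverse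
    simp only [hG0] at this
    exact this
  have hτ0 : τ 0 = 0 := by
    have := hs.localInverse_apply_image
    simp only [hG0] at this
    exact this
  have hτc : ContDiffAt ℂ 1 τ 0 := by
    have hcd : ContDiffAt ℂ 1 (fun z => F (ss E p z)) 0 := hGa.contDiffAt
    have := hcd.to_localInverse hL (by norm_num)
    simp only [hG0] at this
    exact this
  have hτt : Tendsto τ (𝓝 0) (𝓝 0) := by
    have := hτc.continuousAt
    rwa [ContinuousAt, hτ0] at this
  have hloc1 : ∀ᶠ x in 𝓝 p, ss E p (τ (F x)) = x := by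
    filter_upwards [(tendsto_cc (E := E) p).eventually hτ1, eventually_ss_cc (E := E) p]
      with x h3 h4
    rw [h4] at h3
    rw [h3, h4]
  have hloc2 : ∀ᶠ w in 𝓝 (0 : Fin n → ℂ), F (ss E p (τ w)) = w ∧
      ContMDiffAt 𝓘(ℂ, Fin n → ℂ) 𝓘(ℂ, E) 1 (fun w => ss E p (τ w)) w := by
    filter_upwards [hτ2, hτc.eventually (by norm_num), hτt.eventually (eventually_target p)]
      with w h3 h4 h5
    exact ⟨h3, (contMDiffAt_ss h5).comp w (contMDiffAt_iff_contDiffAt.2 h4)⟩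
  -- injectivity
  have hinj : Function.Injective F := by
    intro x y hxy
    obtain ⟨m, hm1, hm2⟩ := (((hb x).eventually hloc1).and ((hb y).eventually hloc1)).exists
    apply hRinj m
    rw [← hm1, ← hm2, hNF, hNF, hxy]
  -- the polynomial maps
  have hrange : range F ∈ 𝓝 (0 : Fin n → ℂ) := by
    filter_upwards [hτ2] with w hw
    exact ⟨_, hw⟩
  have hNdiff : ∀ m, Differentiable ℂ (N m) := fun m =>
    differentiable_pi.2 fun i => differentiable_of_mem (hNP m i)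
  have hNdiff' : ∀ m, Differentiable ℂ (N' m) := fun m =>
    differentiable_pi.2 fun i => differentiable_of_mem (hNP' m i)
  have hNN : ∀ m w, N' m (N m w) = w := by
    intro m
    have h3 : AnalyticOnNhd ℂ (fun w => N' m (N m w)) univ :=
      Vale.Agent.P281.MF.analyticOnNhd_of_differentiableOn isOpen_univ
        ((hNdiff' m).comp (hNdiff m)).differentiableOn
    have h4 : (fun w => N' m (N m w)) =ᶠ[𝓝 0] fun w => w := by
      filter_upwards [hrange] with w hw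
      obtain ⟨x, rfl⟩ := hw
      rw [← hNF, ← hNF', hinv]
    exact fun w => congrFun (h3.eq_of_eventuallyEq (g := fun w => w) analyticOnNhd_id h4) w
  have hNt : ∀ w, Tendsto (fun m => N m w) atTop (𝓝 0) := by
    intro w
    rw [tendsto_pi_nhds]
    intro i
    refine tendsto_of_mem_Pk (N := fun m y => N m y i) (fun m => hNP m i) hrange ?_ w
    rintro _ ⟨x, rfl⟩
    have h3 : Tendsto (fun m => F (R^[m] x) i) atTop (𝓝 (F p i)) :=
      ((hFi i).continuous.tendsto p).comp (hb x)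
    rw [hF0] at h3
    simp only [hNF] at h3
    exact h3
  -- surjectivity and the smooth inverse
  have hloc3 : ∀ w0 : Fin n → ℂ, ∃ g : (Fin n → ℂ) → M,
      ContMDiffAt 𝓘(ℂ, Fin n → ℂ) 𝓘(ℂ, E) 1 g w0 ∧ ∀ᶠ w in 𝓝 w0, F (g w) = w := by
    intro w0
    obtain ⟨m, hm0⟩ := ((hNt w0).eventually hloc2.eventually_nhds).exists
    refine ⟨fun w => R'^[m] (ss E p (τ (N m w))), ?_, ?_⟩
    · have h3 : ContDiff ℂ 1 (N m) := by
        rw [contDiff_iff_contDiffAt]
        intro w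
        exact (Vale.Agent.P281.MF.analyticOnNhd_of_differentiableOn isOpen_univ
          (hNdiff m).differentiableOn w (mem_univ _)).contDiffAt
      have h4 : ContMDiffAt 𝓘(ℂ, Fin n → ℂ) 𝓘(ℂ, Fin n → ℂ) 1 (N m) w0 :=
        contMDiffAt_iff_contDiffAt.2 h3.contDiffAt
      exact (contMDiff_iterate hR' m).contMDiffAt.comp w0 (hm0.self_of_nhds.2.comp w0 h4)
    · have h5 : Tendsto (N m) (𝓝 w0) (𝓝 (N m w0)) := (hNdiff m).continuous.tendsto w0
      filter_upwards [h5.eventually hm0] with w hw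
      rw [hNF', hw.1, hNN]
  have hsurj : Function.Surjective F := by
    intro w
    obtain ⟨g, -, hg⟩ := hloc3 w
    exact ⟨g w, hg.self_of_nhds⟩
  let e : M ≃ (Fin n → ℂ) := Equiv.ofBijective F ⟨hinj, hsurj⟩
  have he : ContMDiff 𝓘(ℂ, Fin n → ℂ) 𝓘(ℂ, E) 1 e.symm := by
    intro w0
    obtain ⟨g, hg1, hg2⟩ := hloc3 w0
    refine hg1.congr_of_eventuallyEq ?_
    filter_upwards [hg2] with w hw
    apply e.injective
    rw [e.apply_symm_apply]
    exact hw.symm
  have hLs : ContMDiff 𝓘(ℂ, Fin n → ℂ) 𝓘(ℂ, E) 1 L.symm := L.symm.contDiff.contMDiff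
  have hLs' : ContMDiff 𝓘(ℂ, E) 𝓘(ℂ, Fin n → ℂ) 1 L := L.contDiff.contMDiff
  refine ⟨{ toEquiv := e.trans L.symm.toEquiv
            contMDiff_toFun := hLs.comp hF
            contMDiff_invFun := he.comp hLs' }, ?_⟩
  change L.symm (F p) = 0
  rw [hF0, map_zero]

/-- the derivative in the centred chart is the manifold derivative -/
theorem hasFDerivAt_SS {Q : M → M} (hQ : ContMDiff 𝓘(ℂ, E) 𝓘(ℂ, E) 1 Q) {p : M} (hp : Q p = p) :
    ∃ A : E →L[ℂ] E, HasFDerivAt (SS E Q p) A 0 ∧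
      ∀ v : E, A v = (mfderiv 𝓘(ℂ, E) 𝓘(ℂ, E) Q p : E → E) v := by
  obtain ⟨A, hA, hAv⟩ : ∃ A : E →L[ℂ] E,
      HasFDerivWithinAt (extChartAt 𝓘(ℂ, E) (Q p) ∘ Q ∘ (extChartAt 𝓘(ℂ, E) p).symm) A
        (range 𝓘(ℂ, E)) (extChartAt 𝓘(ℂ, E) p p) ∧
      ∀ v : E, A v = (mfderiv 𝓘(ℂ, E) 𝓘(ℂ, E) Q p : E → E) v :=
    ⟨_, ((hQ.mdifferentiable (by norm_num)) p).hasMFDerivAt.2, fun v => rfl⟩
  refine ⟨A, ?_, hAv⟩
  rw [hp] at hA
  simp only [modelWithCornersSelf_coe, range_id, hasFDerivWithinAt_univ] at hA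
  have h1 : HasFDerivAt (extChartAt 𝓘(ℂ, E) p ∘ Q ∘ (extChartAt 𝓘(ℂ, E) p).symm) A
      (0 + extChartAt 𝓘(ℂ, E) p p) := by
    rw [zero_add]; exact hA
  exact ((hasFDerivAt_comp_add_right (extChartAt 𝓘(ℂ, E) p p)).2 h1).sub_const _

/-- **Rosay-Rudin.** Let `T` be a biholomorphic self-map of a complex manifold `M`, `T p = p`, such
that the derivatives of the iterates of `T` at `p` tend to `0` and `T^m x → p` for all `x`. Then
`M` is biholomorphic to `ℂ^n`. -/
theorem rosay_rudin {T T' : M → M} (hT : ContMDiff 𝓘(ℂ, E) 𝓘(ℂ, E) 1 T)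
    (hT' : ContMDiff 𝓘(ℂ, E) 𝓘(ℂ, E) 1 T') (h1 : ∀ x, T' (T x) = x) (h2 : ∀ x, T (T' x) = x)
    {p : M} (hp : T p = p)
    (hd : ∀ v : E, Tendsto (fun m : ℕ => (mfderiv 𝓘(ℂ, E) 𝓘(ℂ, E) (T^[m]) p : E → E) v)
      atTop (𝓝 0))
    (hb : ∀ x, Tendsto (fun m => T^[m] x) atTop (𝓝 p)) :
    ∃ Φ : M ≃ₘ^1⟮𝓘(ℂ, E), 𝓘(ℂ, E)⟯ E, Φ p = 0 := by
  have hA := fun m => hasFDerivAt_SS (contMDiff_iterate hT m) (iterate_fix hp m)
  choose A hA1 hA2 using hA
  have h3 : ∀ v, Tendsto (fun m => A m v) atTop (𝓝 0) := by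
    intro v
    simp only [hA2]
    exact hd v
  have h4 := Vale.Agent.P253.R2.H156.tendsto_norm_of_pointwise h3
  obtain ⟨m, hm, hm1⟩ := ((h4.eventually_le_const (u := 1 / 4) (by norm_num)).and
    (eventually_ge_atTop 1)).exists
  refine main_aux (R := T^[m]) (R' := T'^[m]) (contMDiff_iterate hT m) (contMDiff_iterate hT' m)
    ((show Function.LeftInverse T' T from h1).iterate m)
    ((show Function.LeftInverse T T' from h2).iterate m) (iterate_fix hp m) ?_ ?_
  · rw [(hA1 m).fderiv]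
    exact hm
  · intro x
    have h5 : Tendsto (fun j : ℕ => m * j) atTop atTop :=
      tendsto_id.const_mul_atTop' (by omega)
    have h6 := (hb x).comp h5
    refine h6.congr fun j => ?_
    simp only [Function.comp_apply]
    rw [Function.iterate_mul]

end Vale.Agent.P253.R2.H156.RR
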