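import Vale.Agent.P253.R2.H156.RR6
import Vale.Agent.P253.R2.H445.VF.SgUnif

/-!
P253, Rosay-Rudin for holomorphic actions of `ℂ` and for contracting semigroups on complete Kähler
manifolds of nonnegative bisectional curvature.
-/

open scoped Manifold ContDiff Topology
open Set Metric Filter Bundle Vale.Agent.P253.Mfd

set_option linter.unusedSectionVars false

noncomputable section

namespace Vale.Agent.P253.R2.H156.RR

section flow

variable {E : Type*} [NormedAddCommGroup E] [NormedSpace ℂ E] [FiniteDimensional ℂ E]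
  {M : Type*} [TopologicalSpace M] [ChartedSpace E M] [IsManifold 𝓘(ℂ, E) 1 M]
  {ψ : ℂ → M → M}

theorem flow_contMDiff (hψ : IsHolCFlow E ψ) (ζ : ℂ) : ContMDiff 𝓘(ℂ, E) 𝓘(ℂ, E) 1 (ψ ζ) :=
  hψ.holo.comp (contMDiff_const.prodMk contMDiff_id)

theorem flow_iterate (hψ : IsHolCFlow E ψ) (m : ℕ) (x : M) : (ψ 1)^[m] x = ψ m x := by
  induction m generalizing x with
  | zero => simp [hψ.zero]
  | succ m ih =>
    rw [Function.iterate_succ_apply, ih, ← hψ.add]
    push_cast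
    rfl

/-- **Rosay-Rudin for holomorphic actions of `ℂ`.** -/
theorem unif_flow (hψ : IsHolCFlow E ψ) {p : M} (hp : ∀ ζ, ψ ζ p = p)
    (hd : ∀ v : E, Tendsto (fun t : ℝ => (mfderiv 𝓘(ℂ, E) 𝓘(ℂ, E) (ψ t) p : E → E) v)
      atTop (𝓝 0))
    (hcl : ∀ x, p ∈ closure (range fun ζ => ψ ζ x)) :
    ∃ Φ : M ≃ₘ^1⟮𝓘(ℂ, E), 𝓘(ℂ, E)⟯ E, Φ p = 0 := by
  have hA := fun m : ℕ => hasFDerivAt_SS (flow_contMDiff hψ (m : ℂ)) (hp m)
  choose A hA1 hA2 using hA
  have h3 : ∀ v, Tendsto (fun m => A m v) atTop (𝓝 0) := by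
    intro v
    have h4 := (hd v).comp tendsto_natCast_atTop_atTop
    refine h4.congr fun m => ?_
    have h5 : ((m : ℝ) : ℂ) = (m : ℂ) := Complex.ofReal_natCast m
    rw [hA2]
    change (mfderiv 𝓘(ℂ, E) 𝓘(ℂ, E) (ψ ((m : ℝ) : ℂ)) p : E → E) v = _
    rw [h5]
  have h4 := Vale.Agent.P253.R2.H156.tendsto_norm_of_pointwise h3
  obtain ⟨m, hm⟩ := (h4.eventually_le_const (u := 1 / 4) (by norm_num)).exists
  have hAm : ‖fderiv ℂ (SS E (ψ m) p) 0‖ ≤ 1 / 4 := by
    rw [(hA1 m).fderiv]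
    exact hm
  have hiter : ∀ (j : ℕ) (ζ : ℂ) (x : M), (ψ m)^[j] (ψ ζ x) = ψ ζ ((ψ m)^[j] x) := by
    intro j ζ x
    induction j generalizing x with
    | zero => rfl
    | succ j ih =>
      rw [Function.iterate_succ_apply, Function.iterate_succ_apply, ← ih, ← hψ.add, add_comm,
        hψ.add]
  refine main_aux (R := ψ m) (R' := ψ (-(m : ℂ))) (flow_contMDiff hψ _) (flow_contMDiff hψ _)
    (fun x => by rw [← hψ.add, neg_add_cancel, hψ.zero])
    (fun x => by rw [← hψ.add, add_neg_cancel, hψ.zero]) (hp m) hAm ?_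
  intro x
  have h5 := eventually_tendsto (flow_contMDiff hψ (m : ℂ)) (hp m) hAm
  obtain ⟨V, hV, hVo, hpV⟩ := _root_.eventually_nhds_iff.1 h5
  obtain ⟨_, hy, ζ, rfl⟩ := mem_closure_iff.1 (hcl x) V hVo hpV
  have h6 := hV _ hy
  have h7 : Tendsto (ψ (-ζ)) (𝓝 p) (𝓝 p) := by
    have := (flow_contMDiff hψ (-ζ)).continuous.tendsto p
    rwa [hp] at this
  refine (h7.comp h6).congr fun j => ?_
  simp only [Function.comp_apply]
  rw [hiter, ← hψ.add, neg_add_cancel, hψ.zero]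

end flow

section kaehler

variable {E : Type*} [NormedAddCommGroup E] [NormedSpace ℂ E] [FiniteDimensional ℂ E]
  {M : Type*} [MetricSpace M] [ChartedSpace E M]
  [IsManifold 𝓘(ℂ, E) 1 M] [IsManifold 𝓘(ℝ, E) ∞ M]
  [RiemannianBundle (fun x : M => TangentSpace 𝓘(ℝ, E) x)]
  [IsContMDiffRiemannianBundle 𝓘(ℝ, E) ∞ E (fun x : M => TangentSpace 𝓘(ℝ, E) x)]
  [IsRiemannianManifold 𝓘(ℝ, E) M]

/-- a real fixed point of a holomorphic action of `ℂ` is a fixed point -/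
theorem fix_of_real {ψ : ℂ → M → M} (hψ : IsHolCFlow E ψ) {p : M}
    (hp : ∀ t : ℝ, 0 ≤ t → ψ t p = p) (ζ : ℂ) : ψ ζ p = p := by
  have hmd : ∀ ζ ∈ (univ : Set ℂ), MDifferentiableAt 𝓘(ℂ, ℂ) 𝓘(ℂ, E) (fun ζ => ψ ζ p) ζ := by
    intro ζ _
    have h1 : MDifferentiable (𝓘(ℂ, ℂ).prod 𝓘(ℂ, E)) 𝓘(ℂ, E) (fun q : ℂ × M => ψ q.1 q.2) :=
      hψ.holo.mdifferentiable (by norm_num)
    exact (h1 (ζ, p)).comp ζ ((mdifferentiableAt_id).prodMk mdifferentiableAt_const)
  have h2 := Vale.Agent.P253.R2.H156.eqOn_of_frequently (E := E) isOpen_univ isPreconnected_univ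
    (f := fun ζ => ψ ζ p) (g := fun _ => p) hmd (fun ζ _ => mdifferentiableAt_const)
    (mem_univ (0 : ℂ)) (by
      have h3 : Tendsto (fun t : ℝ => (t : ℂ)) (𝓝[>] 0) (𝓝[≠] 0) := by
        rw [tendsto_nhdsWithin_iff]
        constructor
        · have := (Complex.continuous_ofReal.tendsto 0).mono_left
            (nhdsWithin_le_nhds (s := Ioi (0 : ℝ)))
          simpa using this
        · filter_upwards [self_mem_nhdsWithin] with t ht
          have : (t : ℂ) ≠ 0 := by exact_mod_cast (ne_of_gt ht)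
          simp [this]
      refine h3.frequently (Eventually.frequently ?_)
      filter_upwards [self_mem_nhdsWithin] with t ht
      exact hp t (le_of_lt ht))
  exact h2 (mem_univ ζ)

/-- A complete Kähler manifold of nonnegative bisectional curvature with a contracting semigroup of
holomorphic self-maps is biholomorphic to `ℂ^n`. -/
theorem unif_semigroup (hK : IsKahler E M) [CompleteSpace M]
    [ConnectedSpace M] (hnn : ∀ x : M, NonnegBisectionalAt E x) {φ : ℝ → M → M}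
    (h : IsHolSemigroup E φ) {p : M} (hp : ∀ t : ℝ, 0 ≤ t → φ t p = p)
    (hd : ∀ v : E, Tendsto (fun t : ℝ => (mfderiv 𝓘(ℂ, E) 𝓘(ℂ, E) (φ t) p : E → E) v)
      atTop (𝓝 0))
    (hcl : ∀ x, p ∈ closure ((fun t => φ t x) '' Ici 0)) :
    ∃ Φ : M ≃ₘ^1⟮𝓘(ℂ, E), 𝓘(ℂ, E)⟯ E, Φ p = 0 := by
  obtain ⟨ψ, ⟨hψ, hψφ⟩, -⟩ := H445.existsUnique_semigroup hK hnn h
  have hf : ∀ t : ℝ, 0 ≤ t → ψ t = φ t := fun t ht => funext fun x => hψφ t ht x
  refine unif_flow hψ (fix_of_real hψ fun t ht => by rw [hf t ht, hp t ht]) ?_ ?_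
  · intro v
    refine (hd v).congr' ?_
    filter_upwards [eventually_ge_atTop (0 : ℝ)] with t ht
    rw [hf t ht]
  · intro x
    refine closure_mono ?_ (hcl x)
    rintro _ ⟨t, ht, rfl⟩
    exact ⟨(t : ℂ), hψφ t ht x⟩

/-- **`M` is `ℂ^n` if and only if it has a contracting semigroup of holomorphic self-maps.** -/
theorem iff_contracting (hK : IsKahler E M) [CompleteSpace M]
    [ConnectedSpace M] (hnn : ∀ x : M, NonnegBisectionalAt E x) :
    Nonempty (M ≃ₘ^1⟮𝓘(ℂ, E), 𝓘(ℂ, E)⟯ E) ↔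
      ∃ (φ : ℝ → M → M) (p : M), IsHolSemigroup E φ ∧ (∀ t : ℝ, 0 ≤ t → φ t p = p) ∧
        (∀ v : E, Tendsto (fun t : ℝ => (mfderiv 𝓘(ℂ, E) 𝓘(ℂ, E) (φ t) p : E → E) v)
          atTop (𝓝 0)) ∧
        ∀ x, p ∈ closure ((fun t => φ t x) '' Ici 0) := by
  constructor
  · rintro ⟨F⟩
    obtain ⟨φ, p, h, hp, hlim⟩ := H445.semigroup_of_diffeo F
    refine ⟨φ, p, h, fun t ht => (hp t ht).1, fun v => ?_, fun x =>
      mem_closure_of_tendsto (hlim x)
        (by filter_upwards [Ici_mem_atTop (0 : ℝ)] with t ht using ⟨t, ht, rfl⟩)⟩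
    have h1 : Tendsto (fun t : ℝ => Complex.exp (-(t : ℂ)) • v) atTop (𝓝 0) := by
      have h2 : Tendsto (fun t : ℝ => Complex.exp (-(t : ℂ))) atTop (𝓝 0) := by
        rw [tendsto_zero_iff_norm_tendsto_zero]
        have h3 : (fun t : ℝ => ‖Complex.exp (-(t : ℂ))‖) = fun t : ℝ => Real.exp (-t) := by
          funext t
          rw [Complex.norm_exp]
          simp
        rw [h3]
        exact Real.tendsto_exp_neg_atTop_nhds_zero
      have := h2.smul_const v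
      simpa using this
    refine h1.congr' ?_
    filter_upwards [eventually_ge_atTop (0 : ℝ)] with t ht
    rw [(hp t ht).2]
  · rintro ⟨φ, p, h, hp, hd, hcl⟩
    obtain ⟨Φ, -⟩ := unif_semigroup hK hnn h hp hd hcl
    exact ⟨Φ⟩

end kaehler

end Vale.Agent.P253.R2.H156.RR
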